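import Mathlib

/-!
Random signed sums with nonnegative correlations; approximation of bounded functions, at their
points of continuity, by test functions.
-/

set_option autoImplicit false

namespace Vale.Agent.N145

open MeasureTheory Filter Topology Set

section pos

variable {Ω J : Type*} [MeasurableSpace Ω] {μ : Measure Ω} {b : Ω → J → ℝ}

theorem pow_bound (hint : ∀ f : Ω → ℝ, Integrable f μ)
    (hpos : ∀ l : List J, 0 ≤ ∫ ω, (l.map (b ω)).prod ∂μ) (s : Finset J) {c d : J → ℝ}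
    (hcd : ∀ j ∈ s, |c j| ≤ d j) (k : ℕ) (l : List J) :
    |∫ ω, (∑ j ∈ s, b ω j * c j) ^ k * (l.map (b ω)).prod ∂μ| ≤
      ∫ ω, (∑ j ∈ s, b ω j * d j) ^ k * (l.map (b ω)).prod ∂μ := by
  induction k generalizing l with
  | zero =>
    simp only [pow_zero, one_mul]
    exact (abs_of_nonneg (hpos l)).le
  | succ k ih =>
    have e : ∀ c : J → ℝ, ∫ ω, (∑ j ∈ s, b ω j * c j) ^ (k + 1) * (l.map (b ω)).prod ∂μ =
        ∑ i ∈ s, c i * ∫ ω, (∑ j ∈ s, b ω j * c j) ^ k * ((i :: l).map (b ω)).prod ∂μ := by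
      intro c
      simp only [← integral_const_mul]
      rw [← integral_finsetSum _ fun i _ => hint _]
      refine integral_congr_ae (ae_of_all _ fun ω => ?_)
      simp only [List.map_cons, List.prod_cons]
      rw [pow_succ, mul_assoc, Finset.sum_mul, Finset.mul_sum]
      exact Finset.sum_congr rfl fun i _ => by ring
    rw [e, e]
    refine (Finset.abs_sum_le_sum_abs _ _).trans (Finset.sum_le_sum fun i hi => ?_)
    rw [abs_mul]
    exact mul_le_mul (hcd i hi) (ih _) (abs_nonneg _) ((abs_nonneg _).trans (hcd i hi))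

theorem pow_le (hint : ∀ f : Ω → ℝ, Integrable f μ)
    (hpos : ∀ l : List J, 0 ≤ ∫ ω, (l.map (b ω)).prod ∂μ) (s : Finset J) {c d : J → ℝ}
    (hcd : ∀ j ∈ s, |c j| ≤ d j) (k : ℕ) :
    ∫ ω, (∑ j ∈ s, b ω j * c j) ^ k ∂μ ≤ ∫ ω, (∑ j ∈ s, b ω j * d j) ^ k ∂μ := by
  have h := pow_bound hint hpos s hcd k []
  simp only [List.map_nil, List.prod_nil, mul_one] at h
  exact (le_abs_self _).trans h

theorem norm_pow_le {E : Type*} [NormedAddCommGroup E] [InnerProductSpace ℝ E]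
    (hint : ∀ f : Ω → ℝ, Integrable f μ)
    (hpos : ∀ l : List J, 0 ≤ ∫ ω, (l.map (b ω)).prod ∂μ) (s : Finset J) {u : J → E} {η : ℝ}
    (hu : ∀ j ∈ s, ‖u j‖ ≤ η) (k : ℕ) :
    ∫ ω, ‖∑ j ∈ s, b ω j • u j‖ ^ (2 * k) ∂μ ≤
      η ^ (2 * k) * ∫ ω, (∑ j ∈ s, b ω j) ^ (2 * k) ∂μ := by
  have h := pow_le (b := fun ω (p : J × J) => b ω p.1 * b ω p.2) hint (fun l => by
      have h1 := hpos (l.map Prod.fst ++ l.map Prod.snd)
      simpa only [List.map_append, List.map_map, List.prod_append, List.prod_map_mul,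
        Function.comp_def] using h1) (s ×ˢ s)
    (c := fun p => inner ℝ (u p.1) (u p.2)) (d := fun _ => η ^ 2) (fun p hp => by
      obtain ⟨h1, h2⟩ := Finset.mem_product.1 hp
      refine (abs_real_inner_le_norm _ _).trans ?_
      rw [sq]
      exact mul_le_mul (hu _ h1) (hu _ h2) (norm_nonneg _) ((norm_nonneg _).trans (hu _ h1))) k
  rw [← integral_const_mul]
  refine le_of_eq_of_le ?_ (h.trans_eq ?_)
  · refine integral_congr_ae (ae_of_all _ fun ω => ?_)
    simp only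
    rw [pow_mul, ← real_inner_self_eq_norm_sq, sum_inner, Finset.sum_product]
    congr 1
    refine Finset.sum_congr rfl fun i _ => ?_
    rw [inner_sum]
    refine Finset.sum_congr rfl fun j _ => ?_
    rw [real_inner_smul_left, real_inner_smul_right]
    ring
  · refine integral_congr_ae (ae_of_all _ fun ω => ?_)
    simp only
    rw [pow_mul, pow_mul, ← mul_pow, ← Finset.sum_mul, Finset.sum_product, sq (∑ j ∈ s, b ω j),
      Finset.sum_mul_sum, mul_comm]

end pos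

/-- Smooth real functions with compact support in `D`. -/
def Test (D : Set ℂ) (φ : ℂ → ℝ) : Prop :=
  ContDiff ℝ ((⊤ : ℕ∞) : WithTop ℕ∞) φ ∧ HasCompactSupport φ ∧ tsupport φ ⊆ D

/-- The oscillation on a ball. -/
noncomputable def osc (f : ℂ → ℝ) (r : ℝ) (y : ℂ) : ℝ :=
  ⨆ p : Metric.ball y r × Metric.ball y r, |f p.1 - f p.2|

theorem le_osc {f : ℂ → ℝ} {M : ℝ} (hM : ∀ z, |f z| ≤ M) {r : ℝ} {y a b : ℂ}
    (ha : a ∈ Metric.ball y r) (hb : b ∈ Metric.ball y r) : |f a - f b| ≤ osc f r y := by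
  refine le_ciSup (f := fun p : Metric.ball y r × Metric.ball y r => |f p.1 - f p.2|)
    ⟨M + M, ?_⟩ (⟨a, ha⟩, ⟨b, hb⟩)
  rintro _ ⟨p, rfl⟩
  exact (abs_sub _ _).trans (add_le_add (hM _) (hM _))

theorem osc_le {f : ℂ → ℝ} {r C : ℝ} {y : ℂ} (hC : 0 ≤ C)
    (h : ∀ a ∈ Metric.ball y r, ∀ b ∈ Metric.ball y r, |f a - f b| ≤ C) : osc f r y ≤ C :=
  Real.iSup_le (fun p => h _ p.1.2 _ p.2.2) hC

theorem osc_nonneg (f : ℂ → ℝ) (r : ℝ) (y : ℂ) : 0 ≤ osc f r y :=
  Real.iSup_nonneg fun _ => abs_nonneg _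

theorem osc_mono {f : ℂ → ℝ} {M : ℝ} (hM : ∀ z, |f z| ≤ M) {r r' : ℝ} {y y' : ℂ}
    (h : Metric.ball y r ⊆ Metric.ball y' r') : osc f r y ≤ osc f r' y' :=
  osc_le (osc_nonneg _ _ _) fun _ ha _ hb => le_osc hM (h ha) (h hb)

theorem exists_smooth {t : ℂ → Set ℝ} (ht : ∀ x, Convex ℝ (t x))
    (h : ∀ x, ∃ c, ∀ᶠ y in 𝓝 x, c ∈ t y) :
    ∃ g : ℂ → ℝ, ContDiff ℝ ((⊤ : ℕ∞) : WithTop ℕ∞) g ∧ ∀ x, g x ∈ t x := by
  obtain ⟨g, hg⟩ := exists_contMDiffMap_forall_mem_convex_of_local_const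
    (n := (⊤ : ℕ∞)) (modelWithCornersSelf ℝ ℂ) ht h
  exact ⟨g, g.contMDiff.contDiff, hg⟩

theorem smooth_pair {f : ℂ → ℝ} {M : ℝ} (hM : ∀ z, |f z| ≤ M) {r : ℝ} (hr : 0 < r) :
    ∃ ψ χ : ℂ → ℝ, ContDiff ℝ ((⊤ : ℕ∞) : WithTop ℕ∞) ψ ∧ ContDiff ℝ ((⊤ : ℕ∞) : WithTop ℕ∞) χ ∧
      ∀ y, |f y - ψ y| ≤ χ y ∧ χ y ≤ osc f (3 * r) y := by
  obtain ⟨ψ, h1, h2⟩ := exists_smooth (t := fun y => Icc (f y - osc f r y) (f y + osc f r y))
    (fun _ => convex_Icc _ _) fun x => ⟨f x, by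
      filter_upwards [Metric.ball_mem_nhds x hr] with y hy
      have := le_osc hM (Metric.mem_ball_comm.1 hy) (Metric.mem_ball_self (x := y) hr)
      rw [abs_le] at this
      constructor <;> linarith [this.1, this.2]⟩
  obtain ⟨χ, h3, h4⟩ := exists_smooth (t := fun y => Icc (osc f r y) (osc f (3 * r) y))
    (fun _ => convex_Icc _ _) fun x => ⟨osc f (2 * r) x, by
      filter_upwards [Metric.ball_mem_nhds x hr] with y hy
      rw [Metric.mem_ball] at hy
      refine ⟨osc_mono hM (Metric.ball_subset_ball' ?_), osc_mono hM (Metric.ball_subset_ball' ?_)⟩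
      · linarith
      · rw [dist_comm]; linarith⟩
  refine ⟨ψ, χ, h1, h3, fun y => ⟨le_trans ?_ (h4 y).1, (h4 y).2⟩⟩
  rw [abs_le]
  constructor <;> linarith [(h2 y).1, (h2 y).2]

theorem test_of {D : Set ℂ} (hb : Bornology.IsBounded D) {g : ℂ → ℝ}
    (hg : ContDiff ℝ ((⊤ : ℕ∞) : WithTop ℕ∞) g) {r : ℝ} (hr : 0 < r)
    (h : ∀ z, Metric.infDist z Dᶜ < r → g z = 0) : Test D g := by
  have hc : IsClosed {z | r ≤ Metric.infDist z Dᶜ} :=
    isClosed_le continuous_const (Metric.continuous_infDist_pt _)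
  have h1 : {z | r ≤ Metric.infDist z Dᶜ} ⊆ D := by
    intro z hz
    by_contra hzD
    have h2 : Metric.infDist z Dᶜ = 0 := Metric.infDist_zero_of_mem hzD
    have h3 : r ≤ Metric.infDist z Dᶜ := hz
    linarith
  have h2 : tsupport g ⊆ {z | r ≤ Metric.infDist z Dᶜ} :=
    closure_minimal (fun z hz => not_lt.1 fun k => hz (h z k)) hc
  exact ⟨hg, Metric.isCompact_of_isClosed_isBounded (isClosed_tsupport g)
    (hb.subset (h2.trans h1)), h2.trans h1⟩

theorem dist_low {D K : Set ℂ} (hD : IsOpen D) (hb : Bornology.IsBounded D) (hK : IsCompact K)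
    (hKD : K ⊆ D) : ∃ r > 0, ∀ z ∈ K, r ≤ Metric.infDist z Dᶜ := by
  obtain ⟨r, hr, h⟩ := hK.exists_thickening_subset_open hD hKD
  have hne : Dᶜ.Nonempty := by
    rw [nonempty_compl]
    rintro rfl
    exact NormedSpace.unbounded_univ ℝ ℂ hb
  refine ⟨r, hr, fun z hz => not_lt.1 fun k => ?_⟩
  obtain ⟨w, hw, hzw⟩ := (Metric.infDist_lt_iff hne).1 k
  exact hw (h (Metric.mem_thickening_iff.2 ⟨z, hz, by rwa [dist_comm]⟩))

/-- The approximation by test functions. -/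
theorem approx {D : Set ℂ} (hD : IsOpen D) (hb : Bornology.IsBounded D) {φ : ℂ → ℝ} {M : ℝ}
    (hM : ∀ z, |φ z| ≤ M) :
    ∃ ψ χ : ℕ → ℂ → ℝ, (∀ j, Test D (ψ j)) ∧ (∀ j, Test D (χ j)) ∧
      (∀ j z, |ψ j z| ≤ 3 * M) ∧ (∀ j z, |χ j z| ≤ 3 * M) ∧
      (∀ z ∈ D, ContinuousAt φ z → Tendsto (fun j => ψ j z) atTop (𝓝 (φ z)) ∧
        Tendsto (fun j => χ j z) atTop (𝓝 0)) ∧
      ∀ K ⊆ D, IsCompact K → ∀ᶠ j in atTop, ∀ z,
        |φ z - ψ j z| ≤ χ j z + M * Kᶜ.indicator 1 z := by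
  have hM0 : 0 ≤ M := (abs_nonneg _).trans (hM 0)
  set r : ℕ → ℝ := fun j => 1 / ((j : ℝ) + 1) with hr
  have hr0 : ∀ j, 0 < r j := fun j => by positivity
  have hrt : Tendsto r atTop (𝓝 0) := tendsto_one_div_add_atTop_nhds_zero_nat
  set f : ℕ → ℂ → ℝ := fun j => {z | 4 * r j ≤ Metric.infDist z Dᶜ}.indicator φ with hf
  have hf1 : ∀ j z, 4 * r j ≤ Metric.infDist z Dᶜ → f j z = φ z := fun j z hz =>
    indicator_of_mem (s := {z | 4 * r j ≤ Metric.infDist z Dᶜ}) hz φ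
  have hf0 : ∀ j z, Metric.infDist z Dᶜ < 4 * r j → f j z = 0 := fun j z hz =>
    indicator_of_notMem (s := {z | 4 * r j ≤ Metric.infDist z Dᶜ}) (not_le.2 hz) φ
  have hfM : ∀ j z, |f j z| ≤ M := by
    intro j z
    rcases le_or_gt (4 * r j) (Metric.infDist z Dᶜ) with h | h
    · rw [hf1 j z h]; exact hM z
    · rw [hf0 j z h, abs_zero]; exact hM0
  choose ψ χ h1 h2 h3 using fun j => smooth_pair (hfM j) (hr0 j)
  have hχ0 : ∀ j z, 0 ≤ χ j z := fun j z => (abs_nonneg _).trans (h3 j z).1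
  have hχM : ∀ j z, χ j z ≤ M + M := fun j z => (h3 j z).2.trans
    (osc_le (by positivity) fun a _ b _ => (abs_sub _ _).trans (add_le_add (hfM _ _) (hfM _ _)))
  have hz : ∀ j z, Metric.infDist z Dᶜ < r j → χ j z = 0 := by
    intro j z hz
    refine le_antisymm ((h3 j z).2.trans (osc_le le_rfl fun a ha b hb => ?_)) (hχ0 j z)
    have k : ∀ a ∈ Metric.ball z (3 * r j), f j a = 0 := fun a ha => hf0 j a (by
      have := Metric.infDist_le_infDist_add_dist (s := Dᶜ) (x := a) (y := z)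
      rw [Metric.mem_ball] at ha
      linarith)
    rw [k a ha, k b hb, sub_self, abs_zero]
  refine ⟨ψ, χ, fun j => test_of hb (h1 j) (hr0 j) fun z h => ?_,
    fun j => test_of hb (h2 j) (hr0 j) (hz j), fun j z => ?_, fun j z => ?_, fun z hzD hc => ?_,
    fun K hKD hK => ?_⟩
  · have h4 := (h3 j z).1
    rw [hz j z h, hf0 j z (by linarith [hr0 j]), zero_sub, abs_neg] at h4
    exact abs_nonpos_iff.1 h4
  · have h4 := abs_le.1 ((h3 j z).1.trans (hχM j z))
    have h5 := abs_le.1 (hfM j z)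
    rw [abs_le]
    constructor <;> linarith [h4.1, h4.2, h5.1, h5.2]
  · rw [abs_of_nonneg (hχ0 j z)]
    linarith [hχM j z]
  · obtain ⟨ρ, hρ, hρz⟩ := dist_low hD hb isCompact_singleton (singleton_subset_iff.2 hzD)
    have hρ' := hρz z rfl
    have key : ∀ ε > 0, ∀ᶠ j in atTop, f j z = φ z ∧ χ j z < ε := by
      intro ε hε
      obtain ⟨η, hη, hη'⟩ := Metric.continuousAt_iff.1 hc (ε / 3) (by positivity)
      filter_upwards [hrt.eventually_lt_const (show 0 < ρ / 7 by positivity),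
        hrt.eventually_lt_const (show 0 < η / 3 by positivity)] with j j1 j2
      refine ⟨hf1 j z (by linarith [hr0 j]), lt_of_le_of_lt ((h3 j z).2.trans
        (osc_le (C := 2 * (ε / 3)) (by positivity) fun a ha b hb => ?_)) (by linarith)⟩
      have k : ∀ a ∈ Metric.ball z (3 * r j), |f j a - φ z| < ε / 3 := fun a ha => by
        rw [Metric.mem_ball] at ha
        rw [hf1 j a (by
          have := Metric.infDist_le_infDist_add_dist (s := Dᶜ) (x := z) (y := a)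
          rw [dist_comm] at this
          linarith), ← Real.dist_eq]
        exact hη' (by linarith)
      have k1 := abs_lt.1 (k a ha)
      have k2 := abs_lt.1 (k b hb)
      rw [abs_le]
      constructor <;> linarith [k1.1, k1.2, k2.1, k2.2]
    constructor
    · refine Metric.tendsto_nhds.2 fun ε hε => (key ε hε).mono fun j hj => ?_
      rw [Real.dist_eq, abs_sub_comm, ← hj.1]
      exact (h3 j z).1.trans_lt hj.2
    · refine Metric.tendsto_nhds.2 fun ε hε => (key ε hε).mono fun j hj => ?_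
      rw [Real.dist_eq, sub_zero, abs_of_nonneg (hχ0 j z)]
      exact hj.2
  · obtain ⟨ρ, hρ, hρK⟩ := dist_low hD hb hK hKD
    filter_upwards [hrt.eventually_lt_const (show 0 < ρ / 4 by positivity)] with j hj z
    have h4 := abs_sub_le (φ z) (f j z) (ψ j z)
    have h5 := (h3 j z).1
    by_cases hzK : z ∈ K
    · rw [hf1 j z (by linarith [hρK z hzK])] at h5
      rw [indicator_of_notMem (by simpa using hzK), mul_zero, add_zero]
      exact h5
    · rw [indicator_of_mem (show z ∈ Kᶜ from hzK), Pi.one_apply, mul_one]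
      have h6 : |φ z - f j z| ≤ M := by
        rcases le_or_gt (4 * r j) (Metric.infDist z Dᶜ) with h | h
        · rw [hf1 j z h, sub_self, abs_zero]; exact hM0
        · rw [hf0 j z h, sub_zero]; exact hM z
      linarith

end Vale.Agent.N145
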