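import Vale.Agent.P145W.Defs

/-!
The scaling limit of the height function of the self-dual Ashkin-Teller model up to the boundary,
with moments, and in negative Sobolev spaces: the definitions.
-/

set_option autoImplicit false

namespace Vale.Agent.N145

open MeasureTheory ProbabilityTheory Filter Topology TemperedDistribution Vale.Agent.P145W

/-- The covariance of the Gaussian free field `h` in `D`, where `G` is the Green function:
`E[(h, f) (h, g)] = 2π ∬ f(z) G(z, w) g(w) dz dw`. -/
noncomputable def cov (D : Set ℂ) (G : ℂ → ℂ → ℝ) (f g : ℂ → ℝ) : ℝ :=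
  2 * Real.pi * ∫ z in D, ∫ w in D, f z * G z w * g w

/-- Lattice polygons `P i` which approximate `D` along a countably generated filter, with the
heights `H i` of the admissible pairs. -/
structure Family (D : Set ℂ) where
  /-- the index set -/
  ι : Type
  /-- the filter -/
  l : Filter ι
  countable : l.IsCountablyGenerated
  /-- the polygons -/
  P : ι → Polygon
  approx : Approx l D P
  /-- the heights -/
  H : ∀ i, (P i).Conf → ((P i).V → ℝ) × ((P i).F → ℝ)
  height : ∀ i, ∀ σ ∈ (P i).adm, (P i).IsHeight σ (H i σ)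

/-- Under the height representation with the parameter `t`, the variables `X i` converge in law to
`ν`, and so do the expectations of all continuous functions of polynomial growth. -/
def Conv {D : Set ℂ} (A : Family D) (t : ℝ) {E : Type} [NormedAddCommGroup E] [MeasurableSpace E]
    [BorelSpace E] (X : ∀ i, (A.P i).Conf → E) (ν : Measure E) : Prop :=
  ∃ (_ : ∀ i, IsProbabilityMeasure ((A.P i).law t)) (_ : IsProbabilityMeasure ν),
    TendstoInDistribution X A.l id (fun i => (A.P i).law t) ν ∧
    ∀ F : E → ℝ, Continuous F → (∃ (C : ℝ) (q : ℕ), ∀ x, |F x| ≤ C * (1 + ‖x‖) ^ q) →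
      Integrable F ν ∧
        Tendsto (fun i => ∫ σ, F (X i σ) ∂(A.P i).law t) A.l (𝓝 (∫ x, F x ∂ν))

/-- Along all approximations, `(H_δ(φ j))_j` converges to the law of `(s (h, φ j))_j`, the centred
Gaussian vector with the covariance matrix `s² E[(h, φ i) (h, φ j)]`. -/
def Tested (D : Set ℂ) (G : ℂ → ℂ → ℝ) (t s : ℝ) {k : ℕ} (φ : Fin k → ℂ → ℝ) : Prop :=
  (Matrix.of fun i j => s ^ 2 * cov D G (φ i) (φ j)).PosSemidef ∧ ∀ A : Family D,
    Conv A t (fun i σ => WithLp.toLp 2 fun j => (A.P i).fld (A.H i σ) (φ j))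
      (multivariateGaussian 0 (Matrix.of fun i j => s ^ 2 * cov D G (φ i) (φ j)))

/-- `H_δ = δ² ∑_v H(v) δ_v`, a tempered distribution on the plane. -/
noncomputable def hdist (P : Polygon) (H : (P.V → ℝ) × (P.F → ℝ)) : TemperedDistribution ℂ ℂ :=
  ∑ᶠ v : P.V, ((P.δ ^ 2 * H.1 v : ℝ) : ℂ) • delta (P.δ * pt v)

/-- `L²` of the plane. The Bessel potential of order `-r` identifies it with the Sobolev space
`H^{-r}`. -/
abbrev L2 : Type := Lp ℂ 2 (volume : Measure ℂ)

/-- `ν` is the law of the field `s h` in `H^{-r}`, read in `L²`: the distribution given by the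
Bessel potential of order `r` of a sample, tested against a real Schwartz function `ψ`, is a real
centred Gaussian variable with the variance `s² E[(h, ψ)²]`. -/
def IsField (D : Set ℂ) (G : ℂ → ℂ → ℝ) (s r : ℝ) [MeasurableSpace L2] (ν : Measure L2) : Prop :=
  IsProbabilityMeasure ν ∧ ∀ ψ : SchwartzMap ℂ ℂ, (∀ z, (ψ z).im = 0) →
    ν.map (fun f => besselPotential ℂ ℂ r (Lp.toTemperedDistribution f) ψ) =
      (gaussianReal 0 (s ^ 2 * cov D G (fun z => (ψ z).re) fun z => (ψ z).re).toNNReal).map
        Complex.ofReal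

end Vale.Agent.N145
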