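import Vale.Agent.P145.H821.Final

/-!
The Dirichlet form of functions supported near the boundary is small; upper bounds for the moments
from a larger Jordan domain.
-/

set_option autoImplicit false

namespace Vale.Agent.N145

open Filter Topology Set MeasureTheory
open Vale.Agent.P145 Vale.Agent.P145.PT Vale.Agent.P145.FP Vale.Agent.P145.Dom Vale.Agent.P145.Top

/-- The integral of `|∂_u ψ|` along a segment. -/
noncomputable def seg (ψ : ℝ × ℝ → ℝ) (r : ℝ) (u y : ℝ × ℝ) : ℝ :=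
  ∫ t in (-r)..r, |fderiv ℝ ψ (y + t • u) u|

theorem seg_nonneg (ψ : ℝ × ℝ → ℝ) {r : ℝ} (hr : 0 < r) (u y : ℝ × ℝ) : 0 ≤ seg ψ r u y :=
  intervalIntegral.integral_nonneg (by linarith) fun _ _ => abs_nonneg _

theorem seg_le {E : Set (ℝ × ℝ)} {ψ : ℝ × ℝ → ℝ} (hψ : TestOn E ψ) {r : ℝ} (u y : ℝ × ℝ) {s s' : ℝ}
    (hs : |s| ≤ r) (hs' : |s'| ≤ r) : |ψ (y + s • u) - ψ (y + s' • u)| ≤ seg ψ r u y := by
  have hc : Continuous fun t : ℝ => fderiv ℝ ψ (y + t • u) u :=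
    (hψ.fd u).cont.comp (by fun_prop)
  have hd : ∀ t : ℝ, HasDerivAt (fun t : ℝ => ψ (y + t • u)) (fderiv ℝ ψ (y + t • u) u) t := by
    intro t
    have h1 : HasDerivAt (fun t : ℝ => y + t • u) u t := by
      simpa using ((hasDerivAt_id t).smul_const u).const_add y
    exact ((hψ.1.differentiable (by simp)) _).hasFDerivAt.comp_hasDerivAt t h1
  have key : ∀ s s' : ℝ, |s| ≤ r → |s'| ≤ r → s' ≤ s →
      |ψ (y + s • u) - ψ (y + s' • u)| ≤ seg ψ r u y := by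
    intro s s' hs hs' h
    rw [← intervalIntegral.integral_eq_sub_of_hasDerivAt (fun t _ => hd t)
      (hc.intervalIntegrable _ _)]
    refine (intervalIntegral.abs_integral_le_integral_abs h).trans ?_
    exact intervalIntegral.integral_mono_interval (abs_le.1 hs').1 h (abs_le.1 hs).2
      (ae_of_all _ fun _ => abs_nonneg _) (hc.abs.intervalIntegrable _ _)
  rcases le_total s' s with h | h
  · exact key s s' hs hs' h
  · rw [abs_sub_comm]; exact key s' s hs' hs h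

theorem seg_int {E : Set (ℝ × ℝ)} {ψ : ℝ × ℝ → ℝ} (hψ : TestOn E ψ) {r : ℝ} (hr : 0 < r)
    (u v : ℝ × ℝ) : Integrable (fun x => seg ψ r u (x + v)) ∧
      ∫ x, seg ψ r u (x + v) = 2 * r * ∫ x, |fderiv ℝ ψ x u| := by
  have hg : Integrable fun x => |fderiv ℝ ψ x u| := (hψ.fd u).int.abs
  have hc : Continuous fun p : (ℝ × ℝ) × ℝ => |fderiv ℝ ψ (p.1 + v + p.2 • u) u| :=
    ((hψ.fd u).cont.comp (by fun_prop)).abs
  have e : ∀ t : ℝ, ∫ x, |fderiv ℝ ψ (x + v + t • u) u| = ∫ x, |fderiv ℝ ψ x u| := fun t => by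
    simpa only [add_assoc] using
      integral_add_right_eq_self (fun x => |fderiv ℝ ψ x u|) (v + t • u)
  have hi : Integrable (fun p : (ℝ × ℝ) × ℝ => |fderiv ℝ ψ (p.1 + v + p.2 • u) u|)
      (volume.prod (volume.restrict (Ioc (-r) r))) := by
    refine (integrable_prod_iff' hc.aestronglyMeasurable).2 ⟨ae_of_all _ fun t => ?_, ?_⟩
    · simpa only [add_assoc] using hg.comp_add_right (v + t • u)
    · simp only [Real.norm_eq_abs, abs_abs, e]
      exact integrable_const _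
  simp only [seg, intervalIntegral.integral_of_le (show -r ≤ r by linarith)]
  refine ⟨hi.integral_prod_left, ?_⟩
  rw [integral_integral_swap hi]
  simp only [e, integral_const, measureReal_restrict_apply_univ, Real.volume_real_Ioc,
    smul_eq_mul]
  rw [max_eq_left (by linarith)]
  ring

theorem point_le {E : Set (ℝ × ℝ)} {ψ : ℝ × ℝ → ℝ} (hψ : TestOn E ψ) {r : ℝ} (hr : 0 < r)
    {x p : ℝ × ℝ} (hp : ψ p = 0) (hxp : dist p x = r) :
    |ψ x| ≤ seg ψ r (1, 0) (x + (0, 0)) + seg ψ r (1, 0) (x + (0, r)) +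
      seg ψ r (1, 0) (x + (0, -r)) + (seg ψ r (0, 1) (x + (0, 0)) + seg ψ r (0, 1) (x + (r, 0)) +
      seg ψ r (0, 1) (x + (-r, 0))) := by
  have n := seg_nonneg ψ hr
  have h0 : |(0 : ℝ)| ≤ r := by rw [abs_zero]; exact hr.le
  have hh : ∀ a b : ℝ, |a| ≤ r → |ψ (x + (a, b)) - ψ (x + (0, b))| ≤ seg ψ r (1, 0) (x + (0, b)) :=
    fun a b ha => by
      have e : x + (0, b) + a • ((1, 0) : ℝ × ℝ) = x + (a, b) := by ext <;> simp
      have k := seg_le hψ (1, 0) (x + (0, b)) ha h0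
      rwa [e, zero_smul, add_zero] at k
  have hv : ∀ a b : ℝ, |b| ≤ r → |ψ (x + (a, b)) - ψ (x + (a, 0))| ≤ seg ψ r (0, 1) (x + (a, 0)) :=
    fun a b hb => by
      have e : x + (a, 0) + b • ((0, 1) : ℝ × ℝ) = x + (a, b) := by ext <;> simp
      have k := seg_le hψ (0, 1) (x + (a, 0)) hb h0
      rwa [e, zero_smul, add_zero] at k
  obtain ⟨a, b, rfl⟩ : ∃ a b : ℝ, p = x + (a, b) := ⟨p.1 - x.1, p.2 - x.2, by ext <;> simp⟩
  rw [dist_eq_norm, add_sub_cancel_left, Prod.norm_def, Real.norm_eq_abs, Real.norm_eq_abs] at hxp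
  have ha : |a| ≤ r := hxp ▸ le_max_left _ _
  have hb : |b| ≤ r := hxp ▸ le_max_right _ _
  have e0 : x + ((0, 0) : ℝ × ℝ) = x := by ext <;> simp
  have k1 := abs_le.1 (hh a b ha)
  have k2 := abs_le.1 (hv a b hb)
  have k3 := abs_le.1 (hh a 0 ha)
  have k4 := abs_le.1 (hv 0 b hb)
  rw [hp] at k1 k2
  rw [e0] at k3 k4 ⊢
  have n1 := n (1, 0) x
  have n2 := n (1, 0) (x + (0, r))
  have n3 := n (1, 0) (x + (0, -r))
  have n4 := n (0, 1) x
  have n5 := n (0, 1) (x + (r, 0))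
  have n6 := n (0, 1) (x + (-r, 0))
  rw [abs_le]
  rcases max_eq_iff.1 hxp with ⟨h, -⟩ | ⟨h, -⟩ <;> rcases (abs_eq hr.le).1 h with rfl | rfl <;>
    constructor <;> linarith [k1.1, k1.2, k2.1, k2.2, k3.1, k3.2, k4.1, k4.2]

/-- The boundary estimate. -/
theorem V_small {E : Set (ℝ × ℝ)} (hE : IsOpen E) (hb : Bornology.IsBounded E)
    {χ : ℝ × ℝ → ℝ} (hχ : TestOn E χ) (h1 : ∀ x, |χ x| ≤ 1) {r : ℝ} (hr : 0 < r)
    (h : ∀ x, χ x ≠ 0 → ∃ p ∉ E, dist p x = r) : V E χ ≤ 72 * r ^ 2 * volume.real E := by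
  refine V_le fun ψ hψ => ?_
  have s := seg_int hψ hr
  have k1 : ∫ x, χ x * ψ x ≤ 6 * r * (∫ x, |dx ψ x|) + 6 * r * ∫ x, |dy ψ x| := by
    have i1 := ((s (1, 0) (0, 0)).1.add (s (1, 0) (0, r)).1).add (s (1, 0) (0, -r)).1
    have i2 := ((s (0, 1) (0, 0)).1.add (s (0, 1) (r, 0)).1).add (s (0, 1) (-r, 0)).1
    refine (integral_mono (hχ.intMul hψ.cont) (i1.add i2) fun x => ?_).trans (le_of_eq ?_)
    · have n := seg_nonneg ψ hr
      simp only [Pi.add_apply]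
      by_cases hx : χ x = 0
      · rw [hx, zero_mul]
        exact add_nonneg (add_nonneg (add_nonneg (n _ _) (n _ _)) (n _ _))
          (add_nonneg (add_nonneg (n _ _) (n _ _)) (n _ _))
      · obtain ⟨p, hp, hxp⟩ := h x hx
        refine le_trans ?_ (point_le hψ hr
          (image_eq_zero_of_notMem_tsupport fun k => hp (hψ.2.2 k)) hxp)
        refine (le_abs_self _).trans ?_
        rw [abs_mul]
        exact mul_le_of_le_one_left (abs_nonneg _) (h1 x)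
    · rw [integral_add' i1 i2, integral_add' ((s _ _).1.add (s _ _).1) (s _ _).1,
        integral_add' ((s _ _).1.add (s _ _).1) (s _ _).1, integral_add' (s _ _).1 (s _ _).1,
        integral_add' (s _ _).1 (s _ _).1]
      simp only [(s _ _).2, dx, dy]
      ring
  have k2 : ∀ g : ℝ × ℝ → ℝ, TestOn E g →
      12 * r * (∫ x, |g x|) - ∫ x, g x ^ 2 ≤ 36 * r ^ 2 * volume.real E := by
    intro g hg
    have hfin : volume E < ⊤ := hb.measure_lt_top
    have e : ∫ x, E.indicator (fun _ => 36 * r ^ 2) x = 36 * r ^ 2 * volume.real E := by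
      rw [integral_indicator_const _ hE.measurableSet, smul_eq_mul, mul_comm]
    rw [← integral_const_mul, ← integral_sub (hg.int.abs.const_mul _) hg.intSq, ← e]
    refine integral_mono ((hg.int.abs.const_mul _).sub hg.intSq)
      ((integrable_indicator_iff hE.measurableSet).2 (integrableOn_const hfin.ne)) fun x => ?_
    by_cases hx : x ∈ E
    · simp only [indicator_of_mem hx]
      nlinarith [sq_nonneg (|g x| - 6 * r), sq_abs (g x)]
    · simp [indicator_of_notMem hx, image_eq_zero_of_notMem_tsupport fun k => hx (hg.2.2 k)]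
  have k3 := k2 _ hψ.dx
  have k4 := k2 _ hψ.dy
  unfold energy
  rw [integral_add hψ.dx.intSq hψ.dy.intSq]
  linarith

theorem faceApprox {E : Set (ℝ × ℝ)} (hE : IsOpen E) (hb : Bornology.IsBounded E) {δ : ℕ → ℝ}
    (hδ : ∀ n, 0 < δ n) (hl : Tendsto δ atTop (𝓝 0)) :
    H821.FaceApprox E δ fun n => Fs (δ n) E := by
  refine ⟨hδ, hl, fun ε hε => Eventually.of_forall fun n f hf => 
    ⟨(δ n * f.1, δ n * f.2), (mem_Fs (hδ n) hb).1 hf ?_, by simpa⟩,
    fun K hKE hK => ?_⟩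
  · have := hδ n
    refine ⟨le_rfl, ?_, le_rfl, ?_⟩ <;> simp only <;> nlinarith
  · obtain ⟨r, hr, hrK⟩ := hK.exists_cthickening_subset_open hE hKE
    filter_upwards [hl.eventually_lt_const hr] with n hn z hz
    have h0 := hδ n
    refine (mem_Fs h0 hb).2 fun w hw => hrK (Metric.mem_cthickening_of_dist_le w z r _ hz ?_)
    have key : ∀ a b : ℝ, δ n * (⌊a / δ n⌋ : ℤ) ≤ b → b ≤ δ n * ((⌊a / δ n⌋ : ℤ) + 1) →
        dist b a ≤ r := by
      intro a b h1 h2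
      have h3 := Int.floor_le (a / δ n)
      have h4 := Int.lt_floor_add_one (a / δ n)
      rw [le_div_iff₀ h0] at h3
      rw [div_lt_iff₀ h0] at h4
      rw [Real.dist_eq, abs_le]
      constructor <;> nlinarith
    rw [Prod.dist_eq]
    exact max_le (key _ _ hw.1 hw.2.1) (key _ _ hw.2.2.1 hw.2.2.2)

/-- Upper bounds for the moments from a larger domain. -/
theorem upper {t κ : ℝ} (hm : S_mono (1 / t)) {E : Set (ℝ × ℝ)} (hE : IsOpen E)
    (hb : Bornology.IsBounded E) (hM : H821.MomF t κ E) {δ : ℕ → ℝ} (hδ : ∀ n, 0 < δ n)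
    (hl : Tendsto δ atTop (𝓝 0)) {F : ℕ → Finset (ℤ × ℤ)}
    (hF : ∀ᶠ n in atTop, ∀ f ∈ F n, Dom.sq (δ n) f ⊆ E) {χ : ℝ × ℝ → ℝ} (hχ : TestOn E χ)
    (h0 : ∀ x, 0 ≤ χ x) (k : ℕ) {ε : ℝ} (hε : 0 < ε) : ∀ᶠ n in atTop,
      ze (1 / t) (F n) (fun x => zf (F n) (δ n) χ x ^ k) ≤ gm (κ * V E χ) k + ε := by
  filter_upwards [hF, (hM δ _ (faceApprox hE hb hδ hl) χ hχ k).eventually_lt_const
    (lt_add_of_pos_right _ hε)] with n h1 h2
  refine le_trans ?_ h2.le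
  have h3 : F n ⊆ Fs (δ n) E := fun f hf =>
    (mem_Fs (hδ n) hb).2 fun z hz => h1 f hf ⟨⟨hz.1, hz.2.1⟩, hz.2.2⟩
  have h4 := (abs_nonneg _).trans (squeeze_fin hm (hδ n) hχ.cs (m := fun _ => 0)
    HasCompactSupport.zero h0 (fun _ => le_rfl) (Finset.Subset.refl _) h3 k)
  have e : ∀ S, ze (1 / t) S (fun x => zf S (δ n) χ x ^ k) =
      ze (1 / t) S fun x => (hv (δ n) χ (vh x) + hv (δ n) (fun _ => 0) (vh x)) ^ k := fun S =>
    ze_congr' _ _ fun x hx => by rw [zf_eq_hv hx]; simp [hv]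
  rw [e, e]
  linarith

/-- The image of a disc. -/
def dsc (Φ : (ℝ × ℝ) ≃ₜ (ℝ × ℝ)) (ρ : ℝ) : Set (ℝ × ℝ) := {x | en (Φ.symm x) < ρ}

theorem dsc_jordan (Φ : (ℝ × ℝ) ≃ₜ (ℝ × ℝ)) {ρ : ℝ} (hρ : 0 < ρ) : JG.JordanDomain (dsc Φ ρ) := by
  refine ⟨(Homeomorph.smulOfNeZero ρ hρ.ne').trans Φ, Set.ext fun x => ⟨fun hx => ?_, ?_⟩⟩
  · refine ⟨ρ⁻¹ • Φ.symm x, (mem_disc _).2 ?_, by simp [smul_smul, hρ.ne']⟩
    rw [en_smul (inv_pos.2 hρ).le, inv_mul_lt_iff₀ hρ, mul_one]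
    exact hx
  · rintro ⟨w, hw, rfl⟩
    have h1 := (mem_disc _).1 hw
    simp only [dsc, Homeomorph.trans_apply, Homeomorph.smulOfNeZero_apply, mem_ofPred_eq,
      Homeomorph.symm_apply_apply]
    rw [en_smul hρ.le]
    exact mul_lt_of_lt_one_right hρ h1

theorem dsc_one (Φ : (ℝ × ℝ) ≃ₜ (ℝ × ℝ)) : Φ '' disc = dsc Φ 1 := by
  ext x
  rw [Φ.image_eq_preimage_symm, mem_preimage, mem_disc]
  rfl

theorem en_symm (Φ : (ℝ × ℝ) ≃ₜ (ℝ × ℝ)) : Continuous fun x => en (Φ.symm x) :=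
  en_cont.comp Φ.symm.continuous

theorem cdsc (Φ : (ℝ × ℝ) ≃ₜ (ℝ × ℝ)) (ρ : ℝ) : IsCompact {x | en (Φ.symm x) ≤ ρ} :=
  Φ.symm.isCompact_preimage.2 (isCompact_en ρ)

theorem closure_dsc (Φ : (ℝ × ℝ) ≃ₜ (ℝ × ℝ)) {ρ : ℝ} (h : 1 < ρ) :
    closure (Φ '' disc) ⊆ dsc Φ ρ := by
  rw [dsc_one]
  exact (closure_minimal (fun x hx => le_of_lt hx) (cdsc Φ 1).isClosed).trans
    fun x hx => lt_of_le_of_lt hx h

/-- A smooth cut-off function of an annulus. -/
theorem exists_cut (Φ : (ℝ × ℝ) ≃ₜ (ℝ × ℝ)) {a b c d : ℝ} (hab : a < b) (hcd : c < d) :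
    ∃ χ, TestOn (dsc Φ d) χ ∧ (∀ x, 0 ≤ χ x ∧ χ x ≤ 1) ∧
      (∀ x, b ≤ en (Φ.symm x) → en (Φ.symm x) ≤ c → χ x = 1) ∧
      ∀ x, χ x ≠ 0 → a < en (Φ.symm x) ∧ en (Φ.symm x) < d := by
  have hc := en_symm Φ
  obtain ⟨f, h1, h2, h3⟩ := exists_contMDiffMap_zero_one_of_isClosed (n := (⊤ : ℕ∞))
    (modelWithCornersSelf ℝ (ℝ × ℝ))
    (s := {x | en (Φ.symm x) ≤ a} ∪ {x | (c + d) / 2 ≤ en (Φ.symm x)})
    (t := {x | b ≤ en (Φ.symm x)} ∩ {x | en (Φ.symm x) ≤ c})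
    ((isClosed_le hc continuous_const).union (isClosed_le continuous_const hc))
    ((isClosed_le continuous_const hc).inter (isClosed_le hc continuous_const))
    (disjoint_left.2 fun x hx hx' => by
      simp only [mem_union, mem_inter_iff, mem_ofPred_eq] at hx hx'
      rcases hx with h | h <;> linarith [hx'.1, hx'.2])
  have h4 : ∀ x, f x ≠ 0 → a < en (Φ.symm x) ∧ en (Φ.symm x) < (c + d) / 2 := fun x hx =>
    ⟨not_le.1 fun k => hx (h1 (Or.inl k)), not_le.1 fun k => hx (h1 (Or.inr k))⟩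
  have h5 : tsupport f ⊆ {x | en (Φ.symm x) ≤ (c + d) / 2} :=
    closure_minimal (fun x hx => (h4 x hx).2.le) (cdsc Φ _).isClosed
  refine ⟨f, ⟨f.contMDiff.contDiff, (cdsc Φ _).of_isClosed_subset (isClosed_tsupport _) h5,
    h5.trans fun x hx => lt_of_le_of_lt hx (show (c + d) / 2 < d by linarith)⟩, h3, fun x k1 k2 => h2 ⟨k1, k2⟩,
    fun x hx => ⟨(h4 x hx).1, by linarith [(h4 x hx).2]⟩⟩

/-- Thin annuli around the boundary. -/
theorem thin (Φ : (ℝ × ℝ) ≃ₜ (ℝ × ℝ)) {r : ℝ} (hr : 0 < r) : ∃ η, 0 < η ∧ η < 1 ∧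
    ∀ x, 1 - η < en (Φ.symm x) → en (Φ.symm x) < 1 + η → ∃ p ∉ dsc Φ (1 + η), dist p x = r := by
  obtain ⟨ρ, hρ, hu⟩ := Metric.uniformContinuousOn_iff.1
    ((isCompact_en 2).uniformContinuousOn_of_continuous Φ.continuous.continuousOn) r hr
  refine ⟨min (ρ / 2) (1 / 2), lt_min (by positivity) (by positivity),
    (min_le_right _ _).trans_lt (by norm_num), fun x h1 h2 => ?_⟩
  have m1 := min_le_left (ρ / 2) (1 / 2)
  have m2 := min_le_right (ρ / 2) (1 / 2)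
  set η := min (ρ / 2) (1 / 2)
  obtain ⟨w, rfl⟩ := Φ.surjective x
  rw [Φ.symm_apply_apply] at h1 h2
  have hw : 0 < en w := by linarith
  set w' := ((1 + η) / en w) • w with hw'
  have e1 : en w' = 1 + η := by
    rw [hw', en_smul (div_pos (hw.trans h2) hw).le, div_mul_cancel₀ _ hw.ne']
  have e2 : dist w' w < ρ := by
    have e3 : w' - w = ((1 + η - en w) / en w) • w := by
      rw [hw', sub_div, div_self hw.ne', sub_smul, one_smul]
    rw [dist_eq_norm, e3]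
    refine (norm_le_en _).trans_lt ?_
    rw [en_smul (div_pos (by linarith) hw).le, div_mul_cancel₀ _ hw.ne']
    linarith
  have hn : 0 < ‖w'‖ := by
    rw [norm_pos_iff]
    intro k
    rw [k] at e1
    simp [en, sqn] at e1
    linarith
  have hS : IsPreconnected (Φ '' H821.ray w') :=
    (H821.isPreconnected_ray w').image Φ Φ.continuous.continuousOn
  obtain ⟨y, hy, hyr⟩ : ∃ y ∈ Φ '' H821.ray w', r ≤ dist y (Φ w) := by
    by_contra hcon
    push Not at hcon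
    have k1 : IsCompact (Φ ⁻¹' Metric.closedBall (Φ w) r) :=
      Φ.isCompact_preimage.2 (isCompact_closedBall _ _)
    exact H821.not_isBounded_ray hn (k1.isBounded.subset fun v hv =>
      (hcon _ (mem_image_of_mem Φ hv)).le)
  have k2 : dist (Φ w') (Φ w) < r :=
    hu w' (show en w' ≤ 2 by linarith) w (show en w ≤ 2 by linarith) e2
  obtain ⟨p, ⟨v, ⟨c, hc, rfl⟩, rfl⟩, hp⟩ := hS.intermediate_value
    (mem_image_of_mem Φ (H821.mem_ray w')) hy (f := fun y => dist y (Φ w)) (by fun_prop)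
    ⟨k2.le, hyr⟩
  refine ⟨_, ?_, hp⟩
  have hc' : (1 : ℝ) ≤ c := hc
  simp only [dsc, mem_ofPred_eq, Homeomorph.symm_apply_apply, not_lt]
  rw [en_smul (by linarith), e1]
  nlinarith

end Vale.Agent.N145
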