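import Vale.Agent.N145.Scal
import Vale.Agent.N145.Poin
import Vale.Agent.P145W85.Main

/-!
The Green function is integrable on `D × D`; the covariance form.
-/

set_option autoImplicit false

namespace Vale.Agent.N145

open MeasureTheory ProbabilityTheory Filter Topology Set
open Vale.Agent.P153.H212 Vale.Agent.P145W85 Vale.Agent.P145W85.P153.R2.KAPV

theorem ae_rho {D : Set ℂ} (hD : MeasurableSet D) :
    ∀ᵐ p ∂rho D, p.1 ∈ D ∧ p.2 ∈ D ∧ p.1 ≠ p.2 := by
  have h1 : ∀ᵐ p ∂rho D, p.1 ≠ p.2 := by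
    refine (Measure.ae_prod_iff_ae_ae (isOpen_ne_fun continuous_fst continuous_snd).measurableSet).2
      (ae_of_all _ fun z => ae_restrict_of_ae ((Measure.ae_ne volume z).mono fun w hw => hw.symm))
  filter_upwards [h1, Measure.quasiMeasurePreserving_fst.ae (ae_restrict_mem hD),
    Measure.quasiMeasurePreserving_snd.ae (ae_restrict_mem hD)] with p a b c using ⟨b, c, a⟩

theorem QQ_iter {D : Set ℂ} {K : ℂ × ℂ → ℝ} {f g : ℂ → ℝ}
    (h : Integrable (fun p => f p.1 * K p * g p.2) (rho D)) :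
    QQ D K f g = ∫ z in D, ∫ w in D, f z * K (z, w) * g w := integral_prod _ h

theorem V_bound {E : Set (ℝ × ℝ)} (hE : IsOpen E) (hb : Bornology.IsBounded E) :
    ∃ C, ∀ χ, P145.PT.TestOn E χ → (∀ x, |χ x| ≤ 1) → P145.PT.V E χ ≤ C := by
  obtain ⟨R, hR, h⟩ := hb.exists_pos_norm_le
  refine ⟨_, fun χ hχ h1 => V_small hE hb hχ h1 (r := 3 * R) (by positivity) fun x hx =>
    ⟨x + (3 * R, 0), fun k => ?_, ?_⟩⟩
  · have h2 := h _ k
    have h3 := h x (hχ.2.2 (subset_tsupport _ hx))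
    have h4 := norm_sub_le (x + (3 * R, 0)) x
    rw [add_sub_cancel_left, Prod.norm_def, norm_zero, Real.norm_of_nonneg (by positivity),
      max_eq_left (by positivity)] at h4
    linarith
  · rw [dist_eq_norm, add_sub_cancel_left, Prod.norm_def, norm_zero,
      Real.norm_of_nonneg (by positivity), max_eq_left (by positivity)]

theorem green_facts (Φ : ℂ ≃ₜ ℂ) {G : ℂ → ℂ → ℝ} (hG : P153D.IsGreen (dom Φ) G) :
    Integrable (fun p : ℂ × ℂ => G p.1 p.2) (rho (dom Φ)) ∧
      (∀ᵐ p ∂rho (dom Φ), G p.2 p.1 = G p.1 p.2) ∧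
      ∀ φ, Test (dom Φ) φ → QQ (dom Φ) (fun p => G p.1 p.2) φ φ =
        P145.PT.V (e '' dom Φ) (φ ∘ e.symm) := by
  obtain ⟨ψ, hψ⟩ := conformal Φ
  have hU := P153DG.unif_of hψ
  have ho := isOpen_dom Φ
  have hb := P153.H212.isBounded_dom Φ
  have ho' : IsOpen (e '' dom Φ) := e.toHomeomorph.isOpenMap _ ho
  have hb' : Bornology.IsBounded (e '' dom Φ) :=
    (hb.isCompact_closure.image e.continuous).isBounded.subset (image_mono subset_closure)
  set K : ℂ × ℂ → ℝ := fun p => gk (Gt (e '' dom Φ) (Function.invFunOn ψ HP) (e p.1))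
    (Gt (e '' dom Φ) (Function.invFunOn ψ HP) (e p.2)) with hK
  have hm : ∀ z ∈ dom Φ, e z ∈ e '' dom Φ := fun z hz => mem_image_of_mem _ hz
  have h1 : ∀ z ∈ dom Φ, ∀ w ∈ dom Φ, z ≠ w → G z w = K (z, w) := fun z hz w hw hzw => by
    rw [(P153D.gr1 Φ ψ hψ).2 G hG z hz w hw hzw, hK]
    simp only
    rw [Gt_mem (hm z hz), Gt_mem (hm w hw)]
    rfl
  have hae := ae_rho ho.measurableSet
  have h2 : ∀ᵐ p ∂rho (dom Φ), 0 ≤ G p.1 p.2 := hae.mono fun p hp => by
    rw [h1 _ hp.1 _ hp.2.1 hp.2.2, hK]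
    simp only
    rw [Gt_mem (hm _ hp.1), Gt_mem (hm _ hp.2.1)]
    exact gk_nonneg (hU.Gm _ (hm _ hp.1)) (hU.Gm _ (hm _ hp.2.1))
  have h3 : ∀ φ, Test (dom Φ) φ →
      Integrable (fun p : ℂ × ℂ => φ p.1 * G p.1 p.2 * φ p.2) (rho (dom Φ)) := by
    intro φ hφ
    have k0 := (testOn_iff _ _).1 hφ
    have k1 := ((Complex.volume_preserving_equiv_real_prod.prod
      Complex.volume_preserving_equiv_real_prod).integrable_comp_of_integrable
      (P153DG.int_prod hU ho' k0 k0)).mono_measure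
      (Measure.prod_mono (Measure.restrict_le_self (s := dom Φ))
        (Measure.restrict_le_self (s := dom Φ)))
    refine k1.congr (hae.mono fun p hp => ?_)
    simp only
    rw [h1 _ hp.1 _ hp.2.1 hp.2.2]
    show K p * φ (e.symm (e p.2)) * φ (e.symm (e p.1)) = φ p.1 * K p * φ p.2
    rw [e.symm_apply_apply, e.symm_apply_apply]
    ring
  have h4 : ∀ φ, Test (dom Φ) φ → QQ (dom Φ) (fun p => G p.1 p.2) φ φ =
      P145.PT.V (e '' dom Φ) (φ ∘ e.symm) := fun φ hφ => by
    rw [QQ_iter (h3 φ hφ), ((grn Φ).2 G hG φ φ hφ hφ).1]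
    exact (V_eq _ _).symm
  refine ⟨?_, hae.mono fun p hp => ?_, h4⟩
  · obtain ⟨C, hC⟩ := V_bound ho' hb'
    obtain ⟨θ, χ, t1, -, t3, -, t5, -⟩ := approx ho hb (φ := fun _ => 1 / 3) (M := 1 / 3)
      fun _ => by norm_num
    have t6 : ∀ j, Test (dom Φ) fun z => θ j z * θ j z := fun j =>
      ⟨(t1 j).1.mul (t1 j).1, (t1 j).2.1.mul_left, (tsupport_mul_subset_left).trans (t1 j).2.2⟩
    have t7 : ∀ᵐ p ∂rho (dom Φ), Tendsto (fun j => θ j p.1 * θ j p.1 * G p.1 p.2 *
        (θ j p.2 * θ j p.2)) atTop (𝓝 (1 / 3 * (1 / 3) * G p.1 p.2 * (1 / 3 * (1 / 3)))) :=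
      hae.mono fun p hp => by
        have a := (t5 _ hp.1 continuousAt_const).1
        have b := (t5 _ hp.2.1 continuousAt_const).1
        exact ((a.mul a).mul_const _).mul (b.mul b)
    have t8 : Integrable (fun p : ℂ × ℂ => 1 / 3 * (1 / 3) * G p.1 p.2 * (1 / 3 * (1 / 3)))
        (rho (dom Φ)) := by
      refine ⟨aestronglyMeasurable_of_tendsto_ae _ (fun j => (h3 _ (t6 j)).1) t7, ?_⟩
      refine lt_of_le_of_lt ?_ (ENNReal.ofReal_lt_top (r := C))
      rw [← lintegral_congr_ae (t7.mono fun p hp => hp.enorm.liminf_eq)]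
      refine (lintegral_liminf_le' fun j => (h3 _ (t6 j)).1.aemeasurable.enorm).trans
        (liminf_le_of_frequently_le' (Frequently.of_forall fun j => ?_))
      rw [← ofReal_integral_norm_eq_lintegral_enorm (h3 _ (t6 j))]
      refine ENNReal.ofReal_le_ofReal (le_trans (le_of_eq ?_)
        (hC _ ((testOn_iff _ _).1 (t6 j)) fun x => ?_))
      · rw [← h4 _ (t6 j)]
        refine integral_congr_ae (h2.mono fun p hp => Real.norm_of_nonneg ?_)
        exact mul_nonneg (mul_nonneg (mul_self_nonneg _) hp) (mul_self_nonneg _)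
      · have a := t3 j (e.symm x)
        rw [Function.comp_apply, abs_mul]
        nlinarith [abs_nonneg (θ j (e.symm x))]
    refine (t8.const_mul 81).congr (ae_of_all _ fun p => ?_)
    simp only
    ring
  · rw [h1 _ hp.1 _ hp.2.1 hp.2.2, h1 _ hp.2.1 _ hp.1 hp.2.2.symm]
    exact P153DG.gk_comm _ _

theorem QQ_int {D : Set ℂ} {K : ℂ × ℂ → ℝ} (hK : Integrable K (rho D)) {f g : ℂ → ℝ} {M M' : ℝ}
    (hf : ∀ z, |f z| ≤ M) (hg : ∀ z, |g z| ≤ M')
    (cf : ∀ᵐ z ∂volume.restrict D, ContinuousAt f z)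
    (cg : ∀ᵐ z ∂volume.restrict D, ContinuousAt g z) :
    Integrable (fun p => f p.1 * K p * g p.2) (rho D) := by
  have key : ∀ f : ℂ → ℝ, (∀ᵐ z ∂volume.restrict D, ContinuousAt f z) →
      AEStronglyMeasurable f (volume.restrict D) := fun f h => by
    rw [← Measure.restrict_eq_self_of_ae_mem (s := {z | ContinuousAt f z}) h]
    exact ContinuousOn.aestronglyMeasurable (fun z hz => ContinuousAt.continuousWithinAt hz)
      (measurableSet_of_continuousAt f)
  exact (hK.bdd_mul ((key f cf).comp_quasiMeasurePreserving Measure.quasiMeasurePreserving_fst)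
    (ae_of_all _ fun p => hf p.1)).mul_bdd
    ((key g cg).comp_quasiMeasurePreserving Measure.quasiMeasurePreserving_snd)
    (ae_of_all _ fun p => hg p.2)

theorem QQ_comm {D : Set ℂ} {K : ℂ × ℂ → ℝ} (hK : ∀ᵐ p ∂rho D, K p.swap = K p) (f g : ℂ → ℝ) :
    QQ D K f g = QQ D K g f := by
  unfold QQ rho
  rw [← integral_prod_swap]
  refine integral_congr_ae (hK.mono fun p hp => ?_)
  simp only [Prod.fst_swap, Prod.snd_swap, hp]
  ring

theorem IsLaw.gauss {D : Set ℂ} {K : ℂ × ℂ → ℝ} (hK : Integrable K (rho D))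
    (hs : ∀ᵐ p ∂rho D, K p.swap = K p) {k : ℕ} {φ : Fin k → ℂ → ℝ} {M : Fin k → ℝ}
    (hM : ∀ j z, |φ j z| ≤ M j) (hc : ∀ j, ∀ᵐ z ∂volume.restrict D, ContinuousAt (φ j) z)
    {ν : Measure (EuclideanSpace ℝ (Fin k))} [IsProbabilityMeasure ν]
    (h : IsLaw D K (fun z => WithLp.toLp 2 fun j => φ j z) ν) :
    (Matrix.of fun i j => QQ D K (φ i) (φ j)).PosSemidef ∧
      ν = multivariateGaussian 0 (Matrix.of fun i j => QQ D K (φ i) (φ j)) := by
  have key : ∀ x : EuclideanSpace ℝ (Fin k),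
      QQ D K (fun w => InnerProductSpace.toDualMap ℝ _ x (WithLp.toLp 2 fun j => φ j w))
        (fun w => InnerProductSpace.toDualMap ℝ _ x (WithLp.toLp 2 fun j => φ j w)) =
      x ⬝ᵥ (Matrix.of fun i j => QQ D K (φ i) (φ j)).mulVec x := by
    intro x
    have i : ∀ i j, Integrable (fun p : ℂ × ℂ => x i * (φ i p.1 * K p * φ j p.2 * x j)) (rho D) :=
      fun i j => ((QQ_int hK (hM i) (hM j) (hc i) (hc j)).mul_const _).const_mul _
    simp only [dotProduct, Matrix.mulVec, Matrix.of_apply, QQ, ← integral_mul_const,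
      Finset.mul_sum, ← integral_const_mul]
    rw [Finset.sum_congr rfl fun a _ => (integral_finsetSum _ fun b _ => i a b).symm,
      ← integral_finsetSum _ fun a _ => integrable_finsetSum _ fun b _ => i a b]
    refine integral_congr_ae (ae_of_all _ fun p => ?_)
    simp only [InnerProductSpace.toDualMap_apply_apply, PiLp.inner_apply, Finset.sum_mul,
      Finset.mul_sum, RCLike.inner_apply, conj_trivial]
    rw [Finset.sum_comm]
    exact Finset.sum_congr rfl fun a _ => Finset.sum_congr rfl fun b _ => by ring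
  have h1 : (Matrix.of fun i j => QQ D K (φ i) (φ j)).PosSemidef := by
    refine Matrix.PosSemidef.of_dotProduct_mulVec_nonneg
      (Matrix.IsHermitian.ext fun i j => QQ_comm hs _ _) fun x => ?_
    exact (h _).1.trans_eq (key (WithLp.toLp 2 x))
  refine ⟨h1, Measure.ext_of_charFun (funext fun x => ?_)⟩
  rw [charFun_multivariateGaussian h1, charFun_eq_charFunDual_toDualMap,
    charFunDual_eq_charFun_map_one, (h _).2, charFun_gaussianReal, Real.coe_toNNReal _ (h _).1, key]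
  simp

end Vale.Agent.N145
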