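import Vale.Agent.N145.Defs

/-!
The Dirac masses in the negative Sobolev spaces of the plane.
-/

set_option autoImplicit false

namespace Vale.Agent.N145

open MeasureTheory ProbabilityTheory Filter Topology TemperedDistribution FourierTransform

theorem l2_sc : SecondCountableTopology L2 :=
  haveI : Fact ((2 : ENNReal) ≠ ⊤) := ⟨ENNReal.ofNat_ne_top⟩
  inferInstance

/-- The Fourier transform of the Bessel potential of a Dirac mass. -/
noncomputable def wave (r : ℝ) (z ξ : ℂ) : ℂ :=
  Real.fourierChar (-inner ℝ ξ z) • (((1 + ‖ξ‖ ^ 2) ^ (-r / 2) : ℝ) : ℂ)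

theorem wave_cont (r : ℝ) : Continuous fun p : ℂ × ℂ => wave r p.1 p.2 := by
  refine (Real.continuous_fourierChar.comp (by fun_prop)).smul
    (Complex.continuous_ofReal.comp (Continuous.rpow_const (by fun_prop) fun p => Or.inl ?_))
  positivity

theorem wave_sq (r : ℝ) (z ξ : ℂ) : ‖wave r z ξ‖ ^ 2 = (1 + ‖ξ‖ ^ 2) ^ (-(2 * r) / 2) := by
  rw [wave, Circle.norm_smul, Complex.norm_real, Real.norm_of_nonneg (by positivity),
    ← Real.rpow_mul_natCast (by positivity)]
  congr 1
  push_cast
  ring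

theorem wave_int {r : ℝ} (hr : 1 < r) :
    Integrable fun ξ : ℂ => (1 + ‖ξ‖ ^ 2) ^ (-(2 * r) / 2) :=
  integrable_rpow_neg_one_add_norm_sq (by rw [Complex.finrank_real_complex]; push_cast; linarith)

theorem wave_mem {r : ℝ} (hr : 1 < r) (z : ℂ) : MemLp (wave r z) 2 := by
  refine (memLp_two_iff_integrable_sq_norm
    ((wave_cont r).comp (Continuous.prodMk_right z)).aestronglyMeasurable).2 ?_
  simp only [Function.comp_apply, wave_sq]
  exact wave_int hr

theorem norm_sq_eq (f : L2) : ‖f‖ ^ 2 = ∫ ξ, ‖f ξ‖ ^ 2 := by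
  rw [← real_inner_self_eq_norm_sq, L2.inner_def]
  simp only [real_inner_self_eq_norm_sq]

/-- The Bessel potential of a Dirac mass. -/
noncomputable def dir {r : ℝ} (hr : 1 < r) (z : ℂ) : L2 := 𝓕⁻ ((wave_mem hr z).toLp _)

theorem norm_inv_eq (f : L2) : ‖(𝓕⁻ f : L2)‖ = ‖f‖ := (Lp.fourierTransformₗᵢ ℂ ℂ).symm.norm_map f

theorem dir_norm {r : ℝ} (hr : 1 < r) (z : ℂ) : ‖dir hr z‖ ≤ ‖dir hr 0‖ := by
  rw [dir, dir, norm_inv_eq, norm_inv_eq]
  refine Lp.norm_le_norm_of_ae_le ?_
  filter_upwards [(wave_mem hr z).coeFn_toLp, (wave_mem hr 0).coeFn_toLp] with ξ h1 h2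
  rw [h1, h2, wave, wave, Circle.norm_smul, Circle.norm_smul]

theorem dir_cont {r : ℝ} (hr : 1 < r) : Continuous (dir hr) := by
  refine (Lp.fourierTransformₗᵢ ℂ ℂ).symm.continuous.comp
    (continuous_iff_continuousAt.2 fun w => tendsto_iff_norm_sub_tendsto_zero.2 ?_)
  have h1 : Continuous fun z => ∫ ξ, ‖wave r z ξ - wave r w ξ‖ ^ 2 := by
    refine continuous_of_dominated (bound := fun ξ => 4 * (1 + ‖ξ‖ ^ 2) ^ (-(2 * r) / 2))
      (fun z => (((wave_mem hr z).1.sub (wave_mem hr w).1).norm.pow 2))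
      (fun z => ae_of_all _ fun ξ => ?_) ((wave_int hr).const_mul 4) (ae_of_all _ fun ξ => ?_)
    · have a := wave_sq r z ξ
      have b := wave_sq r w ξ
      have c := pow_le_pow_left₀ (norm_nonneg _) (norm_sub_le (wave r z ξ) (wave r w ξ)) 2
      rw [Real.norm_of_nonneg (by positivity)]
      nlinarith [sq_nonneg (‖wave r z ξ‖ - ‖wave r w ξ‖)]
    · exact (((wave_cont r).comp (Continuous.prodMk_left ξ)).sub continuous_const).norm.pow 2
  have h2 := (Real.continuous_sqrt.comp h1).tendsto w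
  simp only [Function.comp_apply, sub_self, norm_zero, ne_eq, OfNat.ofNat_ne_zero,
    not_false_eq_true, zero_pow, integral_zero, Real.sqrt_zero] at h2
  refine h2.congr fun z => ?_
  rw [← Real.sqrt_sq (norm_nonneg (_ - _)), norm_sq_eq]
  refine congrArg _ (integral_congr_ae ?_)
  filter_upwards [Lp.coeFn_sub ((wave_mem hr z).toLp _) ((wave_mem hr w).toLp _),
    (wave_mem hr z).coeFn_toLp, (wave_mem hr w).coeFn_toLp] with ξ a b c
  rw [a, Pi.sub_apply, b, c]

theorem dir_eq {r : ℝ} (hr : 1 < r) (z : ℂ) :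
    besselPotential ℂ ℂ (-r) (delta z) = Lp.toTemperedDistribution (dir hr z) := by
  rw [dir, ← Lp.fourierInv_toTemperedDistribution_eq, besselPotential, fourierMultiplierCLM_apply]
  refine congrArg _ ?_
  ext u
  rw [smulLeftCLM_apply_apply, TemperedDistribution.fourier_apply, delta_apply,
    Lp.toTemperedDistribution_apply, SchwartzMap.fourier_coe, Real.fourier_eq]
  refine integral_congr_ae ?_
  filter_upwards [(wave_mem hr z).coeFn_toLp] with ξ h
  rw [h, SchwartzMap.smulLeftCLM_apply_apply (by fun_prop), wave, smul_comm (u ξ), smul_eq_mul,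
    smul_eq_mul, mul_comm]

/-- The pairing of a distribution in `H^{-r}` with a Schwartz function. -/
noncomputable def pair (r : ℝ) (ψ : SchwartzMap ℂ ℂ) : L2 →L[ℂ] ℂ :=
  (PointwiseConvergenceCLM.evalCLM _ ℂ ψ).comp
    ((besselPotential ℂ ℂ r).comp (Lp.toTemperedDistributionCLM ℂ volume 2))

theorem pair_apply (r : ℝ) (ψ : SchwartzMap ℂ ℂ) (f : L2) :
    pair r ψ f = besselPotential ℂ ℂ r (Lp.toTemperedDistribution f) ψ := rfl

theorem pair_dir {r : ℝ} (hr : 1 < r) (ψ : SchwartzMap ℂ ℂ) (z : ℂ) : pair r ψ (dir hr z) = ψ z := by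
  rw [pair_apply, ← dir_eq, besselPotential_besselPotential_apply, neg_add_cancel,
    besselPotential_zero]
  rfl

theorem IsField.unique {D : Set ℂ} {G : ℂ → ℂ → ℝ} {s r : ℝ} [MeasurableSpace L2] [BorelSpace L2]
    {ν ν' : Measure L2} (h : IsField D G s r ν) (h' : IsField D G s r ν') : ν = ν' := by
  have := l2_sc
  have := h.1
  have := h'.1
  refine Measure.ext_of_charFun ((SchwartzMap.denseRange_toLpCLM (E := ℂ) (F := ℂ) (p := 2)
    (μ := volume) ENNReal.ofNat_ne_top).equalizer continuous_charFun continuous_charFun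
    (funext fun g => ?_))
  set ψ : SchwartzMap ℂ ℂ := 𝓕 (SchwartzMap.smulLeftCLM ℂ
    (fun x : ℂ => (((1 + ‖x‖ ^ 2) ^ (-r / 2) : ℝ) : ℂ))
    (𝓕⁻ (SchwartzMap.postcompCLM (Complex.conjCLE : ℂ →L[ℝ] ℂ) g))) with hψ
  set a := SchwartzMap.postcompCLM (Complex.ofRealCLM.comp Complex.reCLM) ψ with ha
  set b := SchwartzMap.postcompCLM (Complex.ofRealCLM.comp Complex.imCLM) ψ with hb
  have e1 : ψ = a + Complex.I • b := by
    ext z
    simp [ha, hb, mul_comm Complex.I]
  have e2 : ∀ f : L2, inner ℝ f (SchwartzMap.toLpCLM ℝ ℂ 2 volume g) =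
      (pair r a f).re - (pair r b f).im := by
    intro f
    have k : pair r ψ f = Lp.toTemperedDistribution f
        (SchwartzMap.postcompCLM (Complex.conjCLE : ℂ →L[ℝ] ℂ) g) := by
      have k1 := besselPotential_besselPotential_apply r (-r) (Lp.toTemperedDistribution f)
      rw [add_neg_cancel, besselPotential_zero] at k1
      exact congrArg (fun T : TemperedDistribution ℂ ℂ =>
        T (SchwartzMap.postcompCLM (Complex.conjCLE : ℂ →L[ℝ] ℂ) g)) k1
    have k2 : pair r ψ f = inner ℂ (SchwartzMap.toLpCLM ℝ ℂ 2 volume g) f := by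
      rw [k, Lp.toTemperedDistribution_apply, L2.inner_def]
      refine integral_congr_ae ?_
      filter_upwards [g.coeFn_toLp 2 volume] with z hz
      rw [SchwartzMap.toLpCLM_apply, hz]
      simp [mul_comm]
    have k3 : pair r ψ f = pair r a f + Complex.I * pair r b f := by
      rw [pair_apply, pair_apply, pair_apply, e1, map_add, map_smul, smul_eq_mul]
    rw [real_inner_comm, L2.inner_def]
    have k4 := congrArg Complex.re (k2.symm.trans k3)
    rw [L2.inner_def, ← RCLike.re_to_complex, ← integral_re (L2.integrable_inner _ _)] at k4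
    simp only [Complex.add_re, Complex.mul_re, Complex.I_re, Complex.I_im, zero_mul, one_mul,
      zero_sub, RCLike.re_to_complex] at k4
    rw [sub_eq_add_neg, ← k4]
    rfl
  have key : ∀ ν : Measure L2, IsField D G s r ν →
      charFun ν (SchwartzMap.toLpCLM ℝ ℂ 2 volume g) = ∫ w : ℂ, Complex.exp (w.re * Complex.I)
        ∂(gaussianReal 0 (s ^ 2 * cov D G (fun z => (a z).re) fun z => (a z).re).toNNReal).map
          Complex.ofReal := by
    intro ν hν
    have m := fun ψ => (pair r ψ).continuous.measurable.aemeasurable (μ := ν)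
    have k1 : ∀ᵐ f ∂ν, (pair r b f).im = 0 := by
      refine ae_of_ae_map (m b) (p := fun w => w.im = 0) ?_
      rw [show ν.map (pair r b) = _ from hν.2 b fun z => by simp [hb]]
      exact (ae_map_iff Complex.measurable_ofReal.aemeasurable
        (isClosed_eq Complex.continuous_im continuous_const).measurableSet).2
        (ae_of_all _ Complex.ofReal_im)
    rw [← hν.2 a fun z => by simp [ha], charFun_apply]
    refine Eq.trans ?_ (integral_map (m a) (by fun_prop)).symm
    refine integral_congr_ae (k1.mono fun f hf => ?_)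
    simp only [e2, hf, sub_zero]
  exact (key ν h).trans (key ν' h').symm

end Vale.Agent.N145
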