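import Vale.Agent.N145.Model
import Vale.Agent.N145.Sob

/-!
The two limit theorems.
-/

set_option autoImplicit false

namespace Vale.Agent.N145

open MeasureTheory ProbabilityTheory Filter Topology Set TemperedDistribution Vale.Agent.P145W

variable {J U t s : ℝ} {D : Set ℂ} {G : ℂ → ℂ → ℝ}

theorem QQ_cov (hD : IsJordan D) (hG : IsGreen D G) (s : ℝ) {f g : ℂ → ℝ} {M M' : ℝ}
    (hf : ∀ z, |f z| ≤ M) (hg : ∀ z, |g z| ≤ M')
    (cf : ∀ᵐ z ∂volume.restrict D, ContinuousAt f z)
    (cg : ∀ᵐ z ∂volume.restrict D, ContinuousAt g z) :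
    QQ D (fun p => s ^ 2 * (2 * Real.pi) * G p.1 p.2) f g = s ^ 2 * cov D G f g := by
  rw [cov, ← QQ_iter (K := fun p => G p.1 p.2) (QQ_int (green_of hD hG).1 hf hg cf cg), QQ, QQ,
    ← integral_const_mul, ← integral_const_mul]
  exact integral_congr_ae (ae_of_all _ fun p => by ring)

theorem fin_V (P : Polygon) : Finite P.V := (P145W51.pol P).choose_spec.finV.to_subtype

theorem tested (hU : U ≤ J) (hs : Real.sinh (2 * J) = Real.exp (-2 * U))
    (ht : t = 1 / √(1 + Real.exp (4 * U)))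
    (hs' : s = 1 / (Real.pi * √(8 / Real.pi * Real.arcsin (√(1 + Real.exp (4 * U)) / 2))))
    (hD : IsJordan D) (hG : IsGreen D G) {k : ℕ} {φ : Fin k → ℂ → ℝ}
    (h : ∀ j, (∃ M, ∀ z, |φ j z| ≤ M) ∧ ∀ᵐ z ∂volume.restrict D, ContinuousAt (φ j) z) :
    Tested D G t s φ := by
  choose M hM using fun j => (h j).1
  have hb : ∀ z, ‖(WithLp.toLp 2 fun j => φ j z : EuclideanSpace ℝ (Fin k))‖ ≤
      ‖(WithLp.toLp 2 M : EuclideanSpace ℝ (Fin k))‖ := fun z => by
    rw [EuclideanSpace.norm_eq, EuclideanSpace.norm_eq]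
    gcongr with j
    exact (hM j z).trans (le_abs_self _)
  obtain ⟨ν, i, h1, h2⟩ := conv_of hU hs ht hs' hD hG hb (fun R =>
    (isCompact_closedBall 0 _).totallyBounded.subset (by
      rintro _ ⟨z, -, rfl⟩
      exact mem_closedBall_zero_iff.2 (hb z)))
    ((ae_all_iff.2 fun j => (h j).2).mono fun z hz =>
      (PiLp.continuous_toLp 2 _).continuousAt.comp (continuousAt_pi.2 hz))
  obtain ⟨h3, rfl⟩ := h1.gauss ((green_of hD hG).1.const_mul _)
    ((green_of hD hG).2.1.mono fun p hp => congrArg _ hp) hM fun j => (h j).2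
  simp only [QQ_cov hD hG s (hM _) (hM _) (h _).2 (h _).2] at h2 h3
  refine ⟨h3, fun A => ?_⟩
  have e : ∀ i σ, vec (A.P i) (A.H i σ) (fun z => WithLp.toLp 2 fun j => φ j z) =
      (WithLp.toLp 2 fun j => (A.P i).fld (A.H i σ) (φ j) : EuclideanSpace ℝ (Fin k)) := by
    intro i σ
    have := fin_V (A.P i)
    have := Fintype.ofFinite (A.P i).V
    ext j
    simp [vec, Polygon.fld, finsum_eq_sum_of_fintype, Finset.mul_sum, mul_assoc]
  simpa only [e] using h2 A

theorem sobolev (hU : U ≤ J) (hs : Real.sinh (2 * J) = Real.exp (-2 * U))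
    (ht : t = 1 / √(1 + Real.exp (4 * U)))
    (hs' : s = 1 / (Real.pi * √(8 / Real.pi * Real.arcsin (√(1 + Real.exp (4 * U)) / 2))))
    (hD : IsJordan D) (hG : IsGreen D G) {r : ℝ} (hr : 1 < r) [MeasurableSpace L2] [BorelSpace L2] :
    ∃ ν, IsField D G s r ν ∧ (∀ ν', IsField D G s r ν' → ν' = ν) ∧
      ∀ A : Family D, ∃ X : ∀ i, (A.P i).Conf → L2,
        (∀ i σ, besselPotential ℂ ℂ (-r) (hdist (A.P i) (A.H i σ)) =
          Lp.toTemperedDistribution (X i σ)) ∧ Conv A t X ν := by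
  have := l2_sc
  obtain ⟨ν, i, h1, h2⟩ := conv_of hU hs ht hs' hD hG (dir_norm hr)
    (fun R => ((isCompact_closedBall 0 R).image (dir_cont hr)).totallyBounded)
    (ae_of_all _ fun z => (dir_cont hr).continuousAt)
  have h3 : IsField D G s r ν := by
    refine ⟨i, fun ψ hψ => ?_⟩
    obtain ⟨-, k1⟩ := h1 (Complex.reCLM.comp ((pair r ψ).restrictScalars ℝ))
    obtain ⟨-, k2⟩ := h1 (Complex.imCLM.comp ((pair r ψ).restrictScalars ℝ))
    simp only [ContinuousLinearMap.comp_apply, ContinuousLinearMap.coe_restrictScalars', pair_dir,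
      Complex.reCLM_apply, Complex.imCLM_apply, hψ] at k1 k2
    have b : ∀ z, |(ψ z).re| ≤ ‖ψ.toBoundedContinuousFunction‖ := fun z =>
      (Complex.abs_re_le_norm _).trans (ψ.toBoundedContinuousFunction.norm_coe_le_norm z)
    have c : ∀ᵐ z ∂volume.restrict D, ContinuousAt (fun z => (ψ z).re) z :=
      ae_of_all _ fun z => (Complex.continuous_re.comp ψ.continuous).continuousAt
    rw [QQ_cov hD hG s b b c c] at k1
    have k3 : ∀ᵐ f ∂ν, (pair r ψ f).im = 0 := by
      refine ae_of_ae_map (Complex.imCLM.comp ((pair r ψ).restrictScalars ℝ)).continuous.aemeasurable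
        (p := fun w => w = 0) ?_
      rw [k2]
      simp [QQ]
    rw [← k1, Measure.map_map Complex.measurable_ofReal (ContinuousLinearMap.measurable _)]
    exact Measure.map_congr (k3.mono fun f hf => Complex.ext rfl hf)
  refine ⟨ν, h3, fun ν' h => h.unique h3, fun A => ⟨_, fun i σ => ?_, h2 A⟩⟩
  have := fin_V (A.P i)
  have := Fintype.ofFinite (A.P i).V
  rw [← Lp.toTemperedDistributionCLM_apply]
  simp only [hdist, vec, finsum_eq_sum_of_fintype, map_sum, map_smul, dir_eq hr]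
  exact Finset.sum_congr rfl fun v _ =>
    ((Lp.toTemperedDistributionCLM ℂ volume 2).map_smul _ _).symm

end Vale.Agent.N145
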