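import Vale.Agent.N145.Green
import Vale.Agent.N145.Defs
import Vale.Agent.P145W.Glue
import Vale.Agent.P145W51.Main

/-!
The height function of the Ashkin-Teller model satisfies the inputs.
-/

set_option autoImplicit false

namespace Vale.Agent.N145

open MeasureTheory ProbabilityTheory Filter Topology Set
open Vale.Agent.P145 Vale.Agent.P145W Vale.Agent.P145.Top

theorem transfer {P : Polygon} {S : Finset (ℤ × ℤ)} (h : Graph P S) {t : ℝ} (ht : 0 < t)
    {H : P.Conf → (P.V → ℝ) × (P.F → ℝ)} (hH : ∀ σ ∈ P.adm, P.IsHeight σ (H σ))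
    (Φ : (ℤ × ℤ → ℝ) → ℝ) :
    ∫ σ, Φ (fun v => extH P (H σ) (Sum.inl v)) ∂P.law t = Dom.ze (1 / t) S fun x => Φ (vh x) := by
  have hne : Nonempty P.Conf := ⟨ofS _ ∅⟩
  let Ψ : JG.Conf → ℝ := fun σ => Φ fun v => extH P (H (Function.invFun (toJ P) σ)) (Sum.inl v)
  have e1 : ∀ σ, Ψ (toJ P σ) = Φ fun v => extH P (H σ) (Sum.inl v) := fun σ => by
    simp only [Ψ, Function.leftInverse_invFun toJ_inj σ]
  have e2 : ∫ σ, Ψ σ ∂JG.law t P.p S = ∫ σ, Ψ (toJ P σ) ∂P.law t := by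
    have k := (Dom.law_aemeasurable t P.p S Ψ).aestronglyMeasurable
    rw [← JG.law_eq, ← h.map_law ht] at k
    rw [← h.map_law ht, integral_map (h.meas _).aemeasurable k]
  simp only [← e1]
  rw [← e2, JG.law_eq, Dom.law_ze ht h.poly h.encl]
  refine ze_congr' _ _ fun x hx => ?_
  have c : toJ P (ofS P (Dom.neg P.p S x)) = Dom.cfx x :=
    (h.toJ_ofS (Dom.neg_subset _ _ _)).trans (Dom.conf_neg h.poly h.encl hx)
  have d : ofS P (Dom.neg P.p S x) ∈ P.adm := by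
    refine h.adm_of (t := t) (h.bd_ofS (Dom.neg_subset _ _ _)) ?_
    rw [c]
    refine (Dom.wt_cfx ht.ne' hx).trans_ne (mul_ne_zero (pow_ne_zero _ ht.ne') ?_)
    unfold Dom.zw
    refine mul_ne_zero (Finset.prod_ne_zero_iff.2 fun e _ => ?_)
      (Finset.prod_ne_zero_iff.2 fun e _ => ?_) <;> split_ifs <;> positivity
  rw [← c, e1]
  refine congrArg Φ (funext fun v => ?_)
  by_cases hv : v ∈ P.V
  · have k := h.isHt (hH _ d)
    rw [c] at k
    exact Dom.IsHt.unique h.encl k (Dom.isHt_cfx h.poly h.encl hx)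
      (Finset.mem_coe.1 (h.verts.symm.subset hv))
  · have k : x (Sum.inl v) = 0 := by
      simpa using (hx.2.2 v 0 0 (Or.inl rfl) (Or.inl rfl)).1 fun k =>
        hv (h.mem_V.2 ⟨v, k, Or.inl rfl, Or.inl rfl⟩)
    simp only [extH, Sum.elim_inl, dif_neg hv, vh, k, Int.cast_zero, zero_div]

theorem eR_pt (δ : ℝ) (v : ℤ × ℤ) : eR.symm (δ * v.1, δ * v.2) = δ * pt v := by
  apply Complex.ext <;> simp [pt]

theorem pow_eq {P : Polygon} {S : Finset (ℤ × ℤ)} (h : Graph P S) {t : ℝ} (ht : 0 < t)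
    {H : P.Conf → (P.V → ℝ) × (P.F → ℝ)} (hH : ∀ σ ∈ P.adm, P.IsHeight σ (H σ))
    (φ : ℝ × ℝ → ℝ) (k : ℕ) :
    ∫ σ, (∑ v ∈ JG.verts S, P.δ ^ 2 * extH P (H σ) (Sum.inl v) * φ (eR (P.δ * pt v))) ^ k
      ∂P.law t = Dom.ze (1 / t) S fun x => Dom.zf S P.δ φ x ^ k := by
  rw [transfer h ht hH fun w => (∑ v ∈ JG.verts S, P.δ ^ 2 * w v * φ (eR (P.δ * pt v))) ^ k]
  simp only [Dom.zf, Dom.fldD, Finset.mul_sum, ← eR_pt, eR.apply_symm_apply, mul_assoc]
  rfl

theorem green_of {D : Set ℂ} (hD : IsJordan D) {G : ℂ → ℂ → ℝ} (hG : IsGreen D G) :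
    Integrable (fun p : ℂ × ℂ => G p.1 p.2) (rho D) ∧ (∀ᵐ p ∂rho D, G p.2 p.1 = G p.1 p.2) ∧
      ∀ φ, Test D φ → QQ D (fun p => G p.1 p.2) φ φ = PT.V (eR '' D) (φ ∘ eR.symm) := by
  obtain ⟨Φ, rfl⟩ := (P145W51.jor D hD).1
  exact green_facts Φ hG

theorem fam_of {t κ : ℝ} (ht : 0 < t) (hκ : 0 < κ) (hm : S_mono (1 / t))
    (hF : ∀ E, JG.JordanDomain E → H821.MomF t κ E) (hT : ∀ E, JG.JordanDomain E → H821.MomT t κ E)
    {D : Set ℂ} (hD : IsJordan D) {G : ℂ → ℂ → ℝ} (hG : IsGreen D G) {P : ℕ → Polygon}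
    (hA : Approx atTop D P) {S : ℕ → Finset (ℤ × ℤ)} (hS : ∀ n, Graph (P n) (S n))
    {H : ∀ n, (P n).Conf → ((P n).V → ℝ) × ((P n).F → ℝ)}
    (hH : ∀ n, ∀ σ ∈ (P n).adm, (P n).IsHeight σ (H n σ)) :
    Fam D (fun p => κ * G p.1 p.2) (fun n => (P n).law t) (fun n => JG.verts (S n))
      (fun n v => (P n).δ * pt v) fun n σ v => (P n).δ ^ 2 * extH (P n) (H n σ) (Sum.inl v) := by
  have hj := (P145W51.jor D hD).2
  have hA' := JG.approx_dom (P145W51.apx D P S hD hA hS)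
  obtain ⟨g1, -, g3⟩ := green_of hD hG
  have hp : ∀ n, IsProbabilityMeasure ((P n).law t) := fun n => (hS n).prob ht
  have hi : ∀ n (f : (P n).Conf → ℝ), Integrable f ((P n).law t) := fun n f => by
    have := (hS n).fin
    exact Integrable.of_finite
  have hpos : ∀ n (l : List (ℤ × ℤ)), 0 ≤ ∫ σ, (l.map fun v =>
      (P n).δ ^ 2 * extH (P n) (H n σ) (Sum.inl v)).prod ∂(P n).law t := fun n l => by
    simp only [List.prod_map_mul]
    rw [integral_const_mul, transfer (hS n) ht (hH n) fun w => (l.map w).prod]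
    exact mul_nonneg (List.prod_nonneg fun a ha => by
      obtain ⟨_, -, rfl⟩ := List.mem_map.1 ha
      positivity) (hm _ _ (Finset.Subset.refl _) l).1
  have hmom : ∀ φ, Test D φ → ∀ k, Tendsto (fun n => ∫ σ, (∑ v ∈ JG.verts (S n),
      (P n).δ ^ 2 * extH (P n) (H n σ) (Sum.inl v) * φ ((P n).δ * pt v)) ^ k ∂(P n).law t) atTop
      (𝓝 (PT.gm (QQ D (fun p => κ * G p.1 p.2) φ φ) k)) := by
    intro φ hφ k
    have e : QQ D (fun p => κ * G p.1 p.2) φ φ = κ * PT.V (eR '' D) (φ ∘ eR.symm) := by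
      rw [← g3 φ hφ, QQ, QQ, ← integral_const_mul]
      exact integral_congr_ae (ae_of_all _ fun p => by ring)
    rw [e]
    refine (hT _ hj _ _ _ _ hA' _ ((P153.H212.testOn_iff _ _).1 hφ) k).congr fun n => ?_
    rw [← pow_eq (hS n) ht (hH n)]
    simp only [Function.comp_apply, eR.symm_apply_apply]
  obtain ⟨Φ, hΦ'⟩ := hj
  have hd : eR '' D = Φ '' PT.disc := hΦ'
  rw [hd] at hA'
  have hsq : ∀ ρ > 1, ∀ᶠ n in atTop, ∀ f ∈ S n, Dom.sq (P n).δ f ⊆ dsc Φ ρ := fun ρ hρ =>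
    Dom.approx_outer Φ hA' (isOpen_lt (en_symm Φ) continuous_const) (closure_dsc Φ hρ)
  have hv : ∀ ρ > 1, ∀ᶠ n in atTop, ∀ v ∈ JG.verts (S n),
      PT.en (Φ.symm (eR ((P n).δ * pt v))) < ρ := fun ρ hρ => (hsq ρ hρ).mono fun n hn v hv => by
    obtain ⟨f, hf, a, b, ha, hb, rfl⟩ := Dom.mem_verts.1 hv
    have := (P n).pos
    rw [← eR_pt, eR.apply_symm_apply]
    refine hn f hf ?_
    rcases ha with rfl | rfl <;> rcases hb with rfl | rfl <;>
      refine ⟨⟨?_, ?_⟩, ?_, ?_⟩ <;> push_cast <;> nlinarith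
  have hb : ∀ ρ, Bornology.IsBounded (dsc Φ ρ) := fun ρ =>
    (cdsc Φ ρ).isBounded.subset fun x (hx : PT.en (Φ.symm x) < ρ) => hx.le
  have hup : ∀ ρ > 1, ∀ χ, PT.TestOn (dsc Φ ρ) χ → (∀ x, 0 ≤ χ x) → ∀ k, ∀ ε > 0, ∀ᶠ n in atTop,
      ∫ σ, (∑ v ∈ JG.verts (S n), (P n).δ ^ 2 * extH (P n) (H n σ) (Sum.inl v) *
        χ (eR ((P n).δ * pt v))) ^ k ∂(P n).law t ≤ PT.gm (κ * PT.V (dsc Φ ρ) χ) k + ε := by
    intro ρ hρ χ hχ h0 k ε hε
    filter_upwards [upper hm (isOpen_lt (en_symm Φ) continuous_const) (hb ρ)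
      (hF _ (dsc_jordan Φ (zero_lt_one.trans hρ))) hA'.pos hA'.lim (hsq ρ hρ) hχ h0 k hε] with n hn
    rw [pow_eq (hS n) ht (hH n)]
    exact hn
  refine ⟨hD.1, hD.2.2.1, g1.const_mul κ, fun n => (hS n).fin, fun n => (hS n).msc, hpos,
    fun φ hφ => ?_, fun φ hφ => ?_, fun ε hε => ?_, fun k => ?_, ?_⟩
  · have k := PT.charfun_of_moments _ _ (fun n k => hi n _) (hmom φ hφ)
    simpa only [mul_comm Complex.I, Complex.ofReal_neg] using k
  · simpa [PT.gm] using hmom φ hφ 2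
  · obtain ⟨r, hr, hrε⟩ : ∃ r : ℝ, 0 < r ∧ κ * (72 * r ^ 2 * volume.real (dsc Φ 2)) ≤ ε / 2 := by
      have h1 : Tendsto (fun r : ℝ => κ * (72 * r ^ 2 * volume.real (dsc Φ 2))) (𝓝[>] 0) (𝓝 0) :=
        (Continuous.tendsto' (by fun_prop) _ _ (by simp)).mono_left nhdsWithin_le_nhds
      obtain ⟨r, h2, h3⟩ :=
        (eventually_mem_nhdsWithin.and (h1.eventually_lt_const (half_pos hε))).exists
      exact ⟨r, h2, h3.le⟩
    obtain ⟨η, h0, h1, h2⟩ := thin Φ hr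
    obtain ⟨χ, c1, c2, c3, c4⟩ := exists_cut Φ (a := 1 - η) (b := 1 - η / 2) (c := 1 + η / 2)
      (d := 1 + η) (by linarith) (by linarith)
    have c5 := V_small (isOpen_lt (en_symm Φ) continuous_const) (hb _) c1
      (fun x => abs_le.2 ⟨by linarith [(c2 x).1], (c2 x).2⟩) hr
      fun x hx => h2 x (c4 x hx).1 (c4 x hx).2
    have c6 : volume.real (dsc Φ (1 + η)) ≤ volume.real (dsc Φ 2) := measureReal_mono
      (fun x hx => lt_trans hx (show 1 + η < 2 by linarith)) (hb 2).measure_lt_top.ne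
    refine ⟨eR ⁻¹' {x | PT.en (Φ.symm x) ≤ 1 - η / 2}, fun z hz => ?_,
      eR.toHomeomorph.isCompact_preimage.2 (cdsc Φ _), ?_⟩
    · rw [← eR.injective.mem_set_image, hd, dsc_one]
      exact lt_of_le_of_lt hz (show 1 - η / 2 < 1 by linarith)
    filter_upwards [hv (1 + η / 2) (by linarith),
      hup (1 + η) (by linarith) χ c1 (fun x => (c2 x).1) 2 _ (half_pos hε)] with n n1 n2
    refine (pow_le (hi n) (hpos n) _ (fun v hv => ?_) 2).trans (n2.trans ?_)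
    · by_cases hz : PT.en (Φ.symm (eR ((P n).δ * pt v))) ≤ 1 - η / 2
      · rw [indicator_of_notMem (by simpa using hz), abs_zero]
        exact (c2 _).1
      · rw [indicator_of_mem (by simpa using hz), c3 _ (not_le.1 hz).le (n1 v hv).le]
        simp
    · have c7 : κ * PT.V (dsc Φ (1 + η)) χ ≤ κ * (72 * r ^ 2 * volume.real (dsc Φ 2)) :=
        mul_le_mul_of_nonneg_left
          (c5.trans (mul_le_mul_of_nonneg_left c6 (by positivity))) hκ.le
      simp only [PT.gm, Nat.cast_zero, zero_add, one_mul, mul_one]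
      linarith
  · obtain ⟨χ, c1, c2, c3, -⟩ := exists_cut Φ (a := -2) (b := -1) (c := 3 / 2) (d := 2)
      (by norm_num) (by norm_num)
    refine ⟨_, ((hv (3 / 2) (by norm_num)).and (hup 2 (by norm_num) χ c1 (fun x => (c2 x).1)
      (2 * k) 1 one_pos)).mono fun n hn => le_trans (le_of_eq ?_) hn.2⟩
    refine integral_congr_ae (ae_of_all _ fun σ => congrArg (· ^ (2 * k))
      (Finset.sum_congr rfl fun v hv => ?_))
    rw [c3 _ (by linarith [PT.en_nonneg (Φ.symm (eR ((P n).δ * pt v)))]) (hn.1 v hv).le, mul_one]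
  · obtain ⟨R, hR⟩ := (eR.toHomeomorph.isCompact_preimage.2 (cdsc Φ 2)).isBounded.subset_closedBall 0
    exact ⟨R, (hv 2 (by norm_num)).mono fun n hn v hv => hR (hn v hv).le⟩

variable {E : Type} [NormedAddCommGroup E] [InnerProductSpace ℝ E]

/-- The height function tested against a function with values in `E`. -/
noncomputable def vec (P : Polygon) (H : (P.V → ℝ) × (P.F → ℝ)) (e : ℂ → E) : E :=
  ∑ᶠ v : P.V, (P.δ ^ 2 * H.1 v) • e (P.δ * pt v)

theorem vec_eq {P : Polygon} {S : Finset (ℤ × ℤ)} (h : Graph P S) (H : (P.V → ℝ) × (P.F → ℝ))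
    (e : ℂ → E) :
    ∑ v ∈ JG.verts S, (P.δ ^ 2 * extH P H (Sum.inl v)) • e (P.δ * pt v) = vec P H e := by
  rw [vec, ← finsum_mem_coe_finset, h.verts, ← finsum_set_coe_eq_finsum_mem
    (f := fun v => (P.δ ^ 2 * extH P H (Sum.inl v)) • e (P.δ * pt v))]
  simp only [extH_inl]

variable [CompleteSpace E] [SecondCountableTopology E] [MeasurableSpace E] [BorelSpace E]

theorem IsLaw.int {D : Set ℂ} {K : ℂ × ℂ → ℝ} {e : ℂ → E} {ν : Measure E}
    [IsProbabilityMeasure ν] (h : IsLaw D K e ν) {F : E → ℝ} (hF : Continuous F) {C : ℝ} {q : ℕ}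
    (hq : ∀ x, |F x| ≤ C * (1 + ‖x‖) ^ q) : Integrable F ν := by
  have : IsGaussian ν := isGaussian_of_map_eq_gaussianReal fun L => ⟨_, _, (h L).2⟩
  have k0 : MemLp (id : E → E) (q : ENNReal) ν := IsGaussian.memLp_id _ q (ENNReal.natCast_ne_top q)
  have k1 : MemLp (fun x : E => 1 + ‖x‖) (q : ENNReal) ν := (memLp_const (1 : ℝ)).add k0.norm
  refine (k1.integrable_norm_pow'.const_mul C).mono' hF.aestronglyMeasurable
    (ae_of_all _ fun x => ?_)
  rw [Real.norm_of_nonneg (show 0 ≤ 1 + ‖x‖ by positivity)]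
  exact hq x

/-- The limit theorem for functions with values in a Hilbert space. -/
theorem conv_of {J U : ℝ} (hU : U ≤ J) (hs : Real.sinh (2 * J) = Real.exp (-2 * U)) {t s : ℝ}
    (ht : t = 1 / √(1 + Real.exp (4 * U)))
    (hs' : s = 1 / (Real.pi * √(8 / Real.pi * Real.arcsin (√(1 + Real.exp (4 * U)) / 2))))
    {D : Set ℂ} (hD : IsJordan D) {G : ℂ → ℂ → ℝ} (hG : IsGreen D G) {e : ℂ → E} {M : ℝ}
    (hM : ∀ z, ‖e z‖ ≤ M) (hT : ∀ R, TotallyBounded (e '' Metric.closedBall 0 R))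
    (hc : ∀ᵐ z ∂volume.restrict D, ContinuousAt e z) :
    ∃ (ν : Measure E) (_ : IsProbabilityMeasure ν),
      IsLaw D (fun p => s ^ 2 * (2 * Real.pi) * G p.1 p.2) e ν ∧
      ∀ A : Family D, Conv A t (fun i σ => vec (A.P i) (A.H i σ) e) ν := by
  have ht0 : 0 < t := by rw [ht]; positivity
  have key : ∀ P : ℕ → Polygon, Approx atTop D P →
      ∀ H : ∀ n, (P n).Conf → ((P n).V → ℝ) × ((P n).F → ℝ),
      (∀ n, ∀ σ ∈ (P n).adm, (P n).IsHeight σ (H n σ)) →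
      ∀ [∀ n, IsProbabilityMeasure ((P n).law t)], ∃ (ν : Measure E) (_ : IsProbabilityMeasure ν),
        IsLaw D (fun p => s ^ 2 * (2 * Real.pi) * G p.1 p.2) e ν ∧
        TendstoInDistribution (fun n σ => vec (P n) (H n σ) e) atTop id (fun n => (P n).law t) ν ∧
        ∀ F : E → ℝ, Continuous F → ∀ (C : ℝ) (q : ℕ), (∀ x, |F x| ≤ C * (1 + ‖x‖) ^ q) →
          Tendsto (fun n => ∫ σ, F (vec (P n) (H n σ) e) ∂(P n).law t) atTop
            (𝓝 (∫ x, F x ∂ν)) := by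
    intro P hA H hH _
    choose S hS using fun n => P145W51.pol (P n)
    have h1 := (fam_of (κ := s ^ 2 * (2 * Real.pi)) ht0
      (mul_pos (pow_pos (hs' ▸ s_pos U) 2) Real.two_pi_pos)
      (by rw [ht, one_div_one_div]; exact FK.s_mono (JG.c_range hU hs).1)
      (fun E hE => ht ▸ hs' ▸ H821.momF hU hs (H821.caratheodory_of_jordan hE).regular)
      (fun E hE => ht ▸ hs' ▸ H821.momT hU hs (H821.caratheodory_of_jordan hE))
      hD hG hA hS hH).hilbert hM hT hc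
    simpa only [vec_eq (hS _)] using h1
  have hp : ∀ P : Polygon, IsProbabilityMeasure (P.law t) := fun P =>
    (P145W51.pol P).choose_spec.prob ht0
  obtain ⟨P, -, h1⟩ := P145W51.exi D hD (fun n => 1 / ((n : ℝ) + 1)) (fun n => by positivity)
    tendsto_one_div_add_atTop_nhds_zero_nat
  have hex : ∀ n (σ : (P n).Conf), ∃ H, σ ∈ (P n).adm → (P n).IsHeight σ H := fun n σ => by
    by_cases h : σ ∈ (P n).adm
    · obtain ⟨H, hH, -⟩ := (P145W51.pol (P n)).choose_spec.exists_height h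
      exact ⟨H, fun _ => hH⟩
    · exact ⟨0, fun k => absurd k h⟩
  choose H hH using hex
  obtain ⟨ν, i, h2, -⟩ := key P h1 H hH
  refine ⟨ν, i, h2, fun A => ⟨fun _ => hp _, i, ⟨fun i =>
    ((P145W51.pol _).choose_spec.meas _).aemeasurable, aemeasurable_id, ?_⟩, fun F hF hq => ?_⟩⟩
  · have := A.countable
    refine tendsto_iff_seq_tendsto.2 fun x hx => ?_
    obtain ⟨ν', i', a, b, -⟩ := key _ (A.approx.comp hx) (fun n => A.H (x n))
      fun n => A.height (x n)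
    obtain rfl := h2.unique a
    exact b.tendsto
  · obtain ⟨C, q, hq⟩ := hq
    have := A.countable
    refine ⟨h2.int hF hq, tendsto_iff_seq_tendsto.2 fun x hx => ?_⟩
    obtain ⟨ν', i', a, -, b⟩ := key _ (A.approx.comp hx) (fun n => A.H (x n))
      fun n => A.height (x n)
    obtain rfl := h2.unique a
    exact b F hF C q hq

end Vale.Agent.N145
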