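import Vale.Agent.N145.Main

/-!
Withdrawn hand-in (not graded), kept as a helper file. The height function of the self-dual Ashkin-Teller model converges in law to a multiple of the
Gaussian free field in every bounded Jordan domain, with all moments: tested against bounded almost
everywhere continuous functions, and in the Sobolev spaces `H^{-r}`, `r > 1`.
-/

namespace Vale.Agent.N145.OldSobolev

open MeasureTheory TopologicalSpace TemperedDistribution Vale.Agent.P145W Vale.Agent.N145

/-- In a bounded Jordan domain the Green function is integrable. At every point of the self-dual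
line, with `s = 1 / (π √g)`, along all approximations `H_δ → s h` in law and with all moments:
(1) tested against bounded functions which are continuous at almost every point of `D`,
(2) in `H^{-r}` of the plane for every `r > 1`. -/
theorem stmt : ∀ D : Opens ℂ, IsJordan D → ∀ G, IsGreen D G →
      IntegrableOn (fun p : ℂ × ℂ => G p.1 p.2) ((D : Set ℂ) ×ˢ (D : Set ℂ)) ∧
      ∀ J U t s : ℝ, 0 < J → U ≤ J → Real.sinh (2 * J) = Real.exp (-2 * U) →
        t = 1 / √(1 + Real.exp (4 * U)) →
        s = 1 / (Real.pi * √(8 / Real.pi * Real.arcsin (√(1 + Real.exp (4 * U)) / 2))) →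
        (∀ (k : ℕ) (φ : Fin k → ℂ → ℝ), (∀ j, (∃ M, ∀ z, |φ j z| ≤ M) ∧
          ∀ᵐ z ∂volume.restrict D, ContinuousAt (φ j) z) → Tested D G t s φ) ∧
        ∀ r > 1, ∀ [MeasurableSpace L2] [BorelSpace L2],
          ∃ ν, IsField D G s r ν ∧ (∀ ν', IsField D G s r ν' → ν' = ν) ∧
            ∀ A : Family D, ∃ X : ∀ i, (A.P i).Conf → L2,
              (∀ i σ, besselPotential ℂ ℂ (-r) (hdist (A.P i) (A.H i σ)) =
                Lp.toTemperedDistribution (X i σ)) ∧ Conv A t X ν := by
  refine fun D hD G hG => ⟨?_, fun J U t s _ hU hs ht hs' =>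
    ⟨fun k φ h => tested hU hs ht hs' hD hG h, fun r hr _ _ => sobolev hU hs ht hs' hD hG hr⟩⟩
  rw [IntegrableOn, Measure.volume_eq_prod, ← Measure.prod_restrict]
  exact (green_of hD hG).1

end Vale.Agent.N145.OldSobolev
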