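import Vale.Agent.N145.Abs
import Vale.Agent.P145.H821.Poly

/-!
The limit of the sums tested against bounded, almost everywhere continuous functions with values in
a Hilbert space.
-/

set_option autoImplicit false

namespace Vale.Agent.N145

open MeasureTheory ProbabilityTheory Filter Topology Set

/-- The Lebesgue measure on `D × D`. -/
noncomputable def rho (D : Set ℂ) : Measure (ℂ × ℂ) :=
  (volume.restrict D).prod (volume.restrict D)

/-- The covariance form. -/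
noncomputable def QQ (D : Set ℂ) (K : ℂ × ℂ → ℝ) (f g : ℂ → ℝ) : ℝ :=
  ∫ p, f p.1 * K p * g p.2 ∂rho D

theorem QQ_lim {D : Set ℂ} {K : ℂ × ℂ → ℝ} (hK : Integrable K (rho D)) {ψ : ℕ → ℂ → ℝ}
    {φ : ℂ → ℝ} {M : ℝ} (hc : ∀ j, Continuous (ψ j)) (hM : ∀ j z, |ψ j z| ≤ M)
    (h : ∀ᵐ z ∂volume.restrict D, Tendsto (fun j => ψ j z) atTop (𝓝 (φ z))) :
    Tendsto (fun j => QQ D K (ψ j) (ψ j)) atTop (𝓝 (QQ D K φ φ)) := by
  refine tendsto_integral_of_dominated_convergence (fun p => M * ‖K p‖ * M) (fun j => ?_)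
    ((hK.norm.const_mul M).mul_const M) (fun j => ae_of_all _ fun p => ?_) ?_
  · exact (((hc j).comp continuous_fst).aestronglyMeasurable.mul hK.1).mul
      ((hc j).comp continuous_snd).aestronglyMeasurable
  · have hM0 : 0 ≤ M := (abs_nonneg _).trans (hM 0 0)
    rw [norm_mul, norm_mul]
    exact mul_le_mul (mul_le_mul_of_nonneg_right (hM _ _) (norm_nonneg _)) (hM _ _)
      (norm_nonneg _) (by positivity)
  · filter_upwards [Measure.quasiMeasurePreserving_fst.ae h,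
      Measure.quasiMeasurePreserving_snd.ae h] with p h1 h2
    exact (h1.mul_const _).mul h2

theorem QQ_smul (D : Set ℂ) (K : ℂ × ℂ → ℝ) (r : ℝ) (f : ℂ → ℝ) :
    QQ D K (fun z => r * f z) (fun z => r * f z) = r ^ 2 * QQ D K f f := by
  unfold QQ
  rw [← integral_const_mul]
  exact integral_congr_ae (ae_of_all _ fun p => by ring)

/-- The inputs. -/
structure Fam (D : Set ℂ) (K : ℂ × ℂ → ℝ) {Ω : ℕ → Type} [∀ n, MeasurableSpace (Ω n)]
    (μ : ∀ n, Measure (Ω n)) (V : ℕ → Finset (ℤ × ℤ)) (z : ℕ → ℤ × ℤ → ℂ)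
    (a : ∀ n, Ω n → ℤ × ℤ → ℝ) : Prop where
  op : IsOpen D
  bd : Bornology.IsBounded D
  ker : Integrable K (rho D)
  fin : ∀ n, Finite (Ω n)
  msc : ∀ n, MeasurableSingletonClass (Ω n)
  pos : ∀ n (l : List (ℤ × ℤ)), 0 ≤ ∫ ω, (l.map (a n ω)).prod ∂μ n
  chr : ∀ φ, Test D φ → Tendsto (fun n => ∫ ω, Complex.exp
    ((∑ v ∈ V n, a n ω v * φ (z n v) : ℝ) * Complex.I) ∂μ n) atTop
    (𝓝 (Complex.exp (-(QQ D K φ φ / 2 : ℝ))))
  sec : ∀ φ, Test D φ → Tendsto (fun n => ∫ ω, (∑ v ∈ V n, a n ω v * φ (z n v)) ^ 2 ∂μ n) atTop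
    (𝓝 (QQ D K φ φ))
  bdry : ∀ ε > 0, ∃ C ⊆ D, IsCompact C ∧ ∀ᶠ n in atTop,
    ∫ ω, (∑ v ∈ V n, a n ω v * Cᶜ.indicator 1 (z n v)) ^ 2 ∂μ n ≤ ε
  mom : ∀ k, ∃ C, ∀ᶠ n in atTop, ∫ ω, (∑ v ∈ V n, a n ω v) ^ (2 * k) ∂μ n ≤ C
  near : ∃ R, ∀ᶠ n in atTop, ∀ v ∈ V n, z n v ∈ Metric.closedBall 0 R

variable {D : Set ℂ} {K : ℂ × ℂ → ℝ} {Ω : ℕ → Type} [∀ n, MeasurableSpace (Ω n)]
  {μ : ∀ n, Measure (Ω n)} [∀ n, IsProbabilityMeasure (μ n)] {V : ℕ → Finset (ℤ × ℤ)}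
  {z : ℕ → ℤ × ℤ → ℂ} {a : ∀ n, Ω n → ℤ × ℤ → ℝ}

theorem Fam.int (h : Fam D K μ V z a) (n : ℕ) {F : Type*} [NormedAddCommGroup F] (f : Ω n → F) :
    Integrable f (μ n) := by
  have := h.fin n
  have := h.msc n
  exact Integrable.of_finite

omit [∀ n, IsProbabilityMeasure (μ n)] in
theorem Fam.meas (h : Fam D K μ V z a) (n : ℕ) {F : Type*} [MeasurableSpace F] (f : Ω n → F) :
    Measurable f := by
  have := h.fin n
  have := h.msc n
  exact Measurable.of_discrete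

theorem exp_sub_le (x y : ℝ) {η : ℝ} (hη : 0 < η) :
    ‖Complex.exp (x * Complex.I) - Complex.exp (y * Complex.I)‖ ≤ η + (x - y) ^ 2 / η := by
  have h1 : Complex.exp (x * Complex.I) - Complex.exp (y * Complex.I) =
      Complex.exp (y * Complex.I) * (Complex.exp (Complex.I * ((x - y : ℝ) : ℂ)) - 1) := by
    rw [mul_sub, ← Complex.exp_add, mul_one]
    congr 2
    push_cast
    ring
  rw [h1, norm_mul, Complex.norm_exp_ofReal_mul_I, one_mul]
  refine Real.norm_exp_I_mul_ofReal_sub_one_le.trans ?_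
  rw [Real.norm_eq_abs, ← sq_abs (x - y), ← sub_nonneg]
  have e : η + |x - y| ^ 2 / η - |x - y| = ((η - |x - y|) ^ 2 + η * |x - y|) / η := by
    field_simp
    ring
  rw [e]
  positivity

theorem Fam.scalar (h : Fam D K μ V z a) {φ : ℂ → ℝ} {M : ℝ} (hM : ∀ z, |φ z| ≤ M)
    (hc : ∀ᵐ z ∂volume.restrict D, ContinuousAt φ z) :
    0 ≤ QQ D K φ φ ∧ Tendsto (fun n => ∫ ω, Complex.exp
      ((∑ v ∈ V n, a n ω v * φ (z n v) : ℝ) * Complex.I) ∂μ n) atTop
      (𝓝 (Complex.exp (-(QQ D K φ φ / 2 : ℝ)))) := by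
  obtain ⟨ψ, χ, h1, h2, h3, h4, h5, h6⟩ := approx h.op h.bd hM
  have hae : ∀ᵐ z ∂volume.restrict D, Tendsto (fun j => ψ j z) atTop (𝓝 (φ z)) ∧
      Tendsto (fun j => χ j z) atTop (𝓝 0) := by
    filter_upwards [hc, ae_restrict_mem h.op.measurableSet] with z a b using h5 z b a
  have l1 := QQ_lim h.ker (fun j => (h1 j).1.continuous) h3 (hae.mono fun z hz => hz.1)
  have l2 := QQ_lim (φ := fun _ => 0) h.ker (fun j => (h2 j).1.continuous) h4
    (hae.mono fun z hz => hz.2)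
  have e0 : QQ D K (fun _ => 0) (fun _ => 0) = 0 := by simp [QQ]
  rw [e0] at l2
  refine ⟨ge_of_tendsto' l1 fun j => ge_of_tendsto' (h.sec _ (h1 j)) fun n =>
    integral_nonneg fun ω => sq_nonneg _, Metric.tendsto_nhds.2 fun ε hε => ?_⟩
  have hM0 : 0 ≤ M := (abs_nonneg _).trans (hM 0)
  set η := ε / 4 with hη
  have hη0 : 0 < η := by positivity
  obtain ⟨C, hCD, hC, hCn⟩ := h.bdry (η ^ 2 / 4 / (M ^ 2 + 1)) (by positivity)
  have l3 : Tendsto (fun j => Complex.exp (-(QQ D K (ψ j) (ψ j) / 2 : ℝ))) atTop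
      (𝓝 (Complex.exp (-(QQ D K φ φ / 2 : ℝ)))) :=
    (Complex.continuous_exp.tendsto _).comp
      ((Complex.continuous_ofReal.tendsto _).comp (l1.div_const 2)).neg
  obtain ⟨j, j1, j2, j3⟩ := ((h6 C hCD hC).and ((l2.eventually_lt_const
    (show 0 < η ^ 2 / 4 by positivity)).and (Metric.tendsto_nhds.1 l3 η hη0))).exists
  filter_upwards [hCn, (h.sec _ (h2 j)).eventually_lt_const j2,
    Metric.tendsto_nhds.1 (h.chr _ (h1 j)) η hη0] with n n1 n2 n3
  have k1 : ∫ ω, (∑ v ∈ V n, a n ω v * (φ (z n v) - ψ j (z n v))) ^ 2 ∂μ n ≤ η ^ 2 := by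
    refine (pow_le (h.int n) (h.pos n) (V n) (fun v _ => j1 (z n v)) 2).trans ?_
    have k2 : ∫ ω, (∑ v ∈ V n, a n ω v * (χ j (z n v) + M * Cᶜ.indicator 1 (z n v))) ^ 2 ∂μ n ≤
        2 * ∫ ω, (∑ v ∈ V n, a n ω v * χ j (z n v)) ^ 2 ∂μ n +
          2 * M ^ 2 * ∫ ω, (∑ v ∈ V n, a n ω v * Cᶜ.indicator 1 (z n v)) ^ 2 ∂μ n := by
      rw [← integral_const_mul, ← integral_const_mul, ← integral_add (h.int n _) (h.int n _)]
      refine integral_mono (h.int n _) (h.int n _) fun ω => ?_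
      have e : ∑ v ∈ V n, a n ω v * (χ j (z n v) + M * Cᶜ.indicator 1 (z n v)) =
          ∑ v ∈ V n, a n ω v * χ j (z n v) +
            M * ∑ v ∈ V n, a n ω v * Cᶜ.indicator 1 (z n v) := by
        rw [Finset.mul_sum, ← Finset.sum_add_distrib]
        exact Finset.sum_congr rfl fun v _ => by ring
      simp only
      rw [e]
      nlinarith [sq_nonneg (∑ v ∈ V n, a n ω v * χ j (z n v) -
        M * ∑ v ∈ V n, a n ω v * Cᶜ.indicator 1 (z n v))]
    have k3 : M ^ 2 * (η ^ 2 / 4 / (M ^ 2 + 1)) ≤ η ^ 2 / 4 := by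
      rw [← mul_div_assoc, div_le_iff₀ (by positivity)]
      nlinarith [sq_nonneg η]
    have k4 := mul_le_mul_of_nonneg_left n1 (sq_nonneg M)
    nlinarith
  have k5 : dist (∫ ω, Complex.exp ((∑ v ∈ V n, a n ω v * φ (z n v) : ℝ) * Complex.I) ∂μ n)
      (∫ ω, Complex.exp ((∑ v ∈ V n, a n ω v * ψ j (z n v) : ℝ) * Complex.I) ∂μ n) ≤ η + η := by
    rw [dist_eq_norm, ← integral_sub (h.int n _) (h.int n _)]
    refine (norm_integral_le_integral_norm _).trans ((integral_mono (h.int n _) (h.int n _)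
      fun ω => exp_sub_le _ _ hη0).trans ?_)
    rw [integral_add (h.int n _) (h.int n _)]
    simp only [integral_const, probReal_univ, one_smul, ← Finset.sum_sub_distrib, ← mul_sub]
    refine add_le_add le_rfl ?_
    rw [integral_div, div_le_iff₀ hη0, ← sq]
    exact k1
  have k6 := dist_triangle4
    (∫ ω, Complex.exp ((∑ v ∈ V n, a n ω v * φ (z n v) : ℝ) * Complex.I) ∂μ n)
    (∫ ω, Complex.exp ((∑ v ∈ V n, a n ω v * ψ j (z n v) : ℝ) * Complex.I) ∂μ n)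
    (Complex.exp (-(QQ D K (ψ j) (ψ j) / 2 : ℝ))) (Complex.exp (-(QQ D K φ φ / 2 : ℝ)))
  linarith

section hilbert

variable {E : Type} [NormedAddCommGroup E] [InnerProductSpace ℝ E] [CompleteSpace E]
  [SecondCountableTopology E] [MeasurableSpace E] [BorelSpace E]

omit [InnerProductSpace ℝ E] [SecondCountableTopology E] [BorelSpace E] in
theorem tight_of {S : Set (Measure E)} (h : ∀ ε : ENNReal, 0 < ε → ∀ r > 0, ∃ C : Set E,
    IsCompact C ∧ ∀ ν ∈ S, ν (Metric.cthickening r C)ᶜ ≤ ε) : IsTightMeasureSet S := by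
  rw [isTightMeasureSet_iff_exists_isCompact_measure_compl_le]
  intro ε hε
  obtain ⟨η, hη, hs⟩ := ENNReal.exists_pos_sum_of_countable hε.ne' ℕ
  choose C hC hν using fun k : ℕ => h (η k) (by exact_mod_cast hη k) (1 / ((k : ℝ) + 1))
    (by positivity)
  refine ⟨⋂ k : ℕ, Metric.cthickening (1 / ((k : ℝ) + 1)) (C k), ?_, fun ν hν' => ?_⟩
  · refine TotallyBounded.isCompact_of_isClosed ?_
      (isClosed_iInter fun k => Metric.isClosed_cthickening)
    refine Metric.totallyBounded_iff.2 fun r hr => ?_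
    obtain ⟨k, hk⟩ := exists_nat_one_div_lt (show 0 < r / 3 by positivity)
    obtain ⟨t, ht, hCt⟩ := Metric.totallyBounded_iff.1 (hC k).totallyBounded (r / 3) (by positivity)
    refine ⟨t, ht, fun x hx => ?_⟩
    obtain ⟨y, hy, hxy⟩ := Metric.mem_thickening_iff.1 (Metric.cthickening_subset_thickening'
      (show 0 < r / 3 by positivity) hk _ (mem_iInter.1 hx k))
    obtain ⟨w, hw, hyw⟩ := mem_iUnion₂.1 (hCt hy)
    refine mem_iUnion₂.2 ⟨w, hw, ?_⟩
    rw [Metric.mem_ball] at hyw ⊢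
    linarith [dist_triangle x y w]
  · rw [compl_iInter]
    exact (measure_iUnion_le _).trans ((ENNReal.tsum_le_tsum fun k => hν k ν hν').trans hs.le)

theorem exists_limit (ν : ℕ → ProbabilityMeasure E)
    (ht : IsTightMeasureSet {(ν n : Measure E) | n}) {c : StrongDual ℝ E → ℂ}
    (hc : ∀ L, Tendsto (fun n => charFunDual (ν n : Measure E) L) atTop (𝓝 (c L))) :
    ∃ ν₀ : ProbabilityMeasure E, charFunDual (ν₀ : Measure E) = c ∧ Tendsto ν atTop (𝓝 ν₀) := by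
  have hK : IsCompact (closure {ν n | n}) :=
    isCompact_closure_of_isTightMeasureSet (by simpa using ht)
  have key : ∀ U : Ultrafilter ℕ, (U : Filter ℕ) ≤ atTop → ∃ ν₀ : ProbabilityMeasure E,
      charFunDual (ν₀ : Measure E) = c ∧ Tendsto ν U (𝓝 ν₀) := by
    intro U hU
    obtain ⟨ν₀, -, h1 : Tendsto _ _ _⟩ := hK.ultrafilter_le_nhds (U.map ν)
      (.trans (by simp) (monotone_principal subset_closure))
    refine ⟨ν₀, funext fun L => tendsto_nhds_unique ?_ ((hc L).mono_left hU), h1⟩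
    exact (ProbabilityMeasure.tendsto_iff_forall_integral_rclike_tendsto ℂ).1 h1
      (BoundedContinuousFunction.probCharDual L)
  obtain ⟨ν₀, h0, -⟩ := key (hyperfilter ℕ) Nat.hyperfilter_le_atTop
  refine ⟨ν₀, h0, (tendsto_iff_ultrafilter _ _ _).2 fun U hU => ?_⟩
  obtain ⟨ν₁, h1, h2⟩ := key U hU
  have h3 : (ν₁ : Measure E) = ν₀ := Measure.ext_of_charFunDual (h1.trans h0.symm)
  obtain rfl : ν₁ = ν₀ := Subtype.ext h3
  exact h2

omit [CompleteSpace E] [SecondCountableTopology E] [MeasurableSpace E] [BorelSpace E] in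
theorem Fam.markov (h : Fam D K μ V z a) (n : ℕ) {u : ℤ × ℤ → E} {η r C : ℝ} (hr : 0 < r)
    (hu : ∀ v ∈ V n, ‖u v‖ ≤ η) (hC : ∫ ω, (∑ v ∈ V n, a n ω v) ^ (2 * 1) ∂μ n ≤ C) :
    (μ n).real {ω | r ≤ ‖∑ v ∈ V n, a n ω v • u v‖} ≤ η ^ 2 * C / r ^ 2 := by
  have h1 := norm_pow_le (h.int n) (h.pos n) (V n) hu 1
  have h2 := mul_meas_ge_le_integral_of_nonneg (μ := μ n)
    (f := fun ω => ‖∑ v ∈ V n, a n ω v • u v‖ ^ (2 * 1)) (ae_of_all _ fun ω => by positivity)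
    (h.int n _) (r ^ 2)
  have h3 : (μ n).real {ω | r ≤ ‖∑ v ∈ V n, a n ω v • u v‖} ≤
      (μ n).real {ω | r ^ 2 ≤ ‖∑ v ∈ V n, a n ω v • u v‖ ^ (2 * 1)} :=
    measureReal_mono fun ω hω => pow_le_pow_left₀ hr.le hω 2
  rw [le_div_iff₀ (by positivity), mul_comm]
  exact (mul_le_mul_of_nonneg_left h3 (sq_nonneg r)).trans (h2.trans (h1.trans
    (mul_le_mul_of_nonneg_left hC (sq_nonneg η))))

omit [SecondCountableTopology E] in
theorem Fam.tight (h : Fam D K μ V z a) {e : ℂ → E} {M : ℝ} (hM : ∀ z, ‖e z‖ ≤ M)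
    (hT : ∀ R, TotallyBounded (e '' Metric.closedBall 0 R)) : ∃ N, IsTightMeasureSet
      {(μ (n + N)).map (fun ω => ∑ v ∈ V (n + N), a (n + N) ω v • e (z (n + N) v)) | n} := by
  obtain ⟨R, hR⟩ := h.near
  obtain ⟨C, hC⟩ := h.mom 1
  obtain ⟨N, hN⟩ := eventually_atTop.1 (hR.and hC)
  have hC0 : 0 ≤ C := (integral_nonneg fun ω => sq_nonneg _).trans (hN N le_rfl).2
  refine ⟨N, tight_of fun ε hε r hr => ?_⟩
  obtain ⟨ε', hε', hεε⟩ : ∃ ε' : ℝ, 0 < ε' ∧ ENNReal.ofReal (ε' + ε') ≤ ε := by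
    obtain ⟨x, -, h1, h2⟩ := ENNReal.lt_iff_exists_real_btwn.1 hε
    exact ⟨x / 2, half_pos (ENNReal.ofReal_pos.1 h1), by rw [add_halves]; exact h2.le⟩
  obtain ⟨η, hη, hηC⟩ : ∃ η : ℝ, 0 < η ∧ η ^ 2 * C / r ^ 2 ≤ ε' := by
    have h1 : Tendsto (fun η : ℝ => η ^ 2 * C / r ^ 2) (𝓝[>] 0) (𝓝 (0 ^ 2 * C / r ^ 2)) :=
      (Continuous.tendsto (by fun_prop) 0).mono_left nhdsWithin_le_nhds
    rw [zero_pow two_ne_zero, zero_mul, zero_div] at h1
    obtain ⟨η, h2, h3⟩ := (eventually_mem_nhdsWithin.and (h1.eventually_lt_const hε')).exists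
    exact ⟨η, h2, h3.le⟩
  obtain ⟨ρ, hρ, hρC⟩ : ∃ ρ : ℝ, 0 < ρ ∧ (M + η) ^ 2 * C / ρ ^ 2 ≤ ε' := by
    have h1 : Tendsto (fun ρ : ℝ => (M + η) ^ 2 * C / ρ ^ 2) atTop (𝓝 0) :=
      tendsto_const_nhds.div_atTop (tendsto_pow_atTop two_ne_zero)
    obtain ⟨ρ, h2, h3⟩ := ((eventually_gt_atTop 0).and (h1.eventually_lt_const hε')).exists
    exact ⟨ρ, h2, h3.le⟩
  obtain ⟨t, ht, hte⟩ := Metric.totallyBounded_iff.1 (hT R) η hη
  have hex : ∀ w ∈ Metric.closedBall (0 : ℂ) R, ∃ y ∈ t, ‖e w - y‖ ≤ η := fun w hw => by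
    obtain ⟨y, hy, hwy⟩ := mem_iUnion₂.1 (hte (mem_image_of_mem e hw))
    exact ⟨y, hy, (mem_ball_iff_norm.1 hwy).le⟩
  choose! e' he' hee using hex
  have : FiniteDimensional ℝ (Submodule.span ℝ t) := FiniteDimensional.span_of_finite ℝ ht
  have : ProperSpace (Submodule.span ℝ t) := FiniteDimensional.proper ℝ _
  refine ⟨Subtype.val '' Metric.closedBall (0 : Submodule.span ℝ t) ρ,
    (isCompact_closedBall _ _).image continuous_subtype_val, ?_⟩
  rintro _ ⟨n, rfl⟩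
  obtain ⟨n1, n2⟩ := hN (n + N) (Nat.le_add_left _ _)
  set m := n + N
  rw [Measure.map_apply (h.meas m _) Metric.isClosed_cthickening.measurableSet.compl]
  have k1 := h.markov m (u := fun v => e (z m v) - e' (z m v)) hr (fun v hv => hee _ (n1 v hv)) n2
  have k2 := h.markov m (u := fun v => e' (z m v)) (η := M + η) hρ (fun v hv => by
    have h1 := norm_sub_le (e (z m v)) (e (z m v) - e' (z m v))
    rw [sub_sub_cancel] at h1
    linarith [hM (z m v), hee _ (n1 v hv)]) n2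
  refine le_trans ?_ hεε
  rw [← ofReal_measureReal]
  refine ENNReal.ofReal_le_ofReal (le_trans ?_ (add_le_add (k1.trans hηC) (k2.trans hρC)))
  refine le_trans (measureReal_mono fun ω hω => ?_) (measureReal_union_le _ _)
  by_contra hcon
  rw [mem_union, not_or, mem_ofPred_eq, mem_ofPred_eq, not_le, not_le] at hcon
  refine hω (Metric.mem_cthickening_of_dist_le _ (∑ v ∈ V m, a m ω v • e' (z m v)) _ _
    ⟨⟨_, Submodule.sum_mem _ fun v hv => Submodule.smul_mem _ _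
      (Submodule.subset_span (he' _ (n1 v hv)))⟩, mem_closedBall_zero_iff.2 hcon.2.le, rfl⟩ ?_)
  rw [dist_eq_norm, ← Finset.sum_sub_distrib]
  simpa only [smul_sub] using hcon.1.le

/-- The centred Gaussian law with the covariance given by the form. -/
def IsLaw (D : Set ℂ) (K : ℂ × ℂ → ℝ) (e : ℂ → E) (ν : Measure E) : Prop :=
  ∀ L : StrongDual ℝ E, 0 ≤ QQ D K (fun w => L (e w)) (fun w => L (e w)) ∧
    ν.map L = gaussianReal 0 (QQ D K (fun w => L (e w)) (fun w => L (e w))).toNNReal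

theorem IsLaw.unique {e : ℂ → E} {ν ν' : Measure E} [IsProbabilityMeasure ν]
    [IsProbabilityMeasure ν'] (h : IsLaw D K e ν) (h' : IsLaw D K e ν') : ν = ν' :=
  Measure.ext_of_charFunDual (funext fun L => by
    rw [charFunDual_eq_charFun_map_one, charFunDual_eq_charFun_map_one, (h L).2, (h' L).2])

theorem Fam.hilbert (h : Fam D K μ V z a) {e : ℂ → E} {M : ℝ} (hM : ∀ z, ‖e z‖ ≤ M)
    (hT : ∀ R, TotallyBounded (e '' Metric.closedBall 0 R))
    (hc : ∀ᵐ z ∂volume.restrict D, ContinuousAt e z) :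
    ∃ (ν : Measure E) (_ : IsProbabilityMeasure ν), IsLaw D K e ν ∧
      TendstoInDistribution (fun n ω => ∑ v ∈ V n, a n ω v • e (z n v)) atTop id μ ν ∧
      ∀ F : E → ℝ, Continuous F → ∀ (C : ℝ) (q : ℕ), (∀ x, |F x| ≤ C * (1 + ‖x‖) ^ q) →
        Tendsto (fun n => ∫ ω, F (∑ v ∈ V n, a n ω v • e (z n v)) ∂μ n) atTop (𝓝 (∫ x, F x ∂ν)) := by
  have hs : ∀ L : StrongDual ℝ E, _ := fun L => h.scalar (φ := fun w => L (e w)) (M := ‖L‖ * M)
    (fun w => (L.le_opNorm _).trans (mul_le_mul_of_nonneg_left (hM w) (norm_nonneg _)))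
    (hc.mono fun w hw => L.continuous.continuousAt.comp hw)
  obtain ⟨N, hN⟩ := h.tight hM hT
  let ν : ℕ → ProbabilityMeasure E := fun n =>
    ⟨(μ n).map fun ω => ∑ v ∈ V n, a n ω v • e (z n v),
      Measure.isProbabilityMeasure_map (h.meas n _).aemeasurable⟩
  obtain ⟨ν₀, h0, h1⟩ := exists_limit (fun n => ν (n + N)) hN
    (c := fun L => Complex.exp (-(QQ D K (fun w => L (e w)) (fun w => L (e w)) / 2 : ℝ)))
    fun L => by
      refine ((tendsto_add_atTop_iff_nat N).2 (hs L).2).congr fun n => ?_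
      simp only [ν, ProbabilityMeasure.coe_mk]
      rw [charFunDual_apply, integral_map (h.meas _ _).aemeasurable (by fun_prop)]
      simp only [map_sum, map_smul, smul_eq_mul]
  have h2 : IsLaw D K e ν₀ := fun L => ⟨(hs L).1, Measure.ext_of_charFun (funext fun r => by
    rw [charFun_map_eq_charFunDual_smul, h0, charFun_gaussianReal, Real.coe_toNNReal _ (hs L).1]
    simp only [smul_apply, smul_eq_mul]
    rw [QQ_smul]
    congr 1
    push_cast
    ring)⟩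
  have h3 : TendstoInDistribution (fun n ω => ∑ v ∈ V n, a n ω v • e (z n v)) atTop id μ
      (ν₀ : Measure E) := by
    refine ⟨fun n => (h.meas n _).aemeasurable, aemeasurable_id, ?_⟩
    simp only [Measure.map_id]
    exact (tendsto_add_atTop_iff_nat N).1 h1
  refine ⟨ν₀, inferInstance, h2, h3, fun F hF C q hq => ?_⟩
  have : IsGaussian (ν₀ : Measure E) :=
    isGaussian_of_map_eq_gaussianReal fun L => ⟨_, _, (h2 L).2⟩
  refine P145.H821.tendsto_poly h3 (fun n f => h.int n _) (fun r => ?_) (fun q => ?_) hF hq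
  · obtain ⟨B, hB⟩ := h.mom (r + 1)
    refine ⟨2 ^ (2 * (r + 1) - 1) * (1 + M ^ (2 * (r + 1)) * B), hB.mono fun n hn => ?_⟩
    have k1 := (norm_pow_le (h.int n) (h.pos n) (V n) (fun v _ => hM (z n v)) (r + 1)).trans
      (mul_le_mul_of_nonneg_left hn (by rw [pow_mul]; positivity))
    refine (integral_mono (h.int n _) (h.int n fun ω => 2 ^ (2 * (r + 1) - 1) *
      (1 ^ (2 * (r + 1)) + ‖∑ v ∈ V n, a n ω v • e (z n v)‖ ^ (2 * (r + 1))))
      fun ω => add_pow_le zero_le_one (norm_nonneg _) _).trans ?_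
    rw [integral_const_mul, integral_add (h.int n _) (h.int n _)]
    simp only [one_pow, integral_const, probReal_univ, smul_eq_mul, mul_one]
    gcongr
  · have k0 : MemLp (id : E → E) (q : ENNReal) (ν₀ : Measure E) :=
      IsGaussian.memLp_id _ q (ENNReal.natCast_ne_top q)
    have k1 : MemLp (fun x : E => 1 + ‖x‖) (q : ENNReal) (ν₀ : Measure E) :=
      (memLp_const (1 : ℝ)).add k0.norm
    refine k1.integrable_norm_pow'.congr (ae_of_all _ fun x => ?_)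
    simp only
    rw [Real.norm_of_nonneg (by positivity)]

end hilbert

end Vale.Agent.N145
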